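import Crest.Agent.X262.Bub96.Defs

/-! # Elementary lemmas on trees: linearity, `Same`, the norming criterion -/

set_option autoImplicit false

namespace Crest.Agent.X262.Bub96

open Polynomial

section hv
variable {R : Type*} [CommRing R]

@[simp] theorem hv_none (d : ℕ) (f : R[X]) : hv d f none = f.coeff d := rfl
@[simp] theorem hv_some (d : ℕ) (f : R[X]) (x : R) : hv d f (some x) = f.eval x := rfl

theorem hv_add (d : ℕ) (f g : R[X]) (x : Option R) : hv d (f + g) x = hv d f x + hv d g x := by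
  cases x <;> simp

theorem hv_smul (d : ℕ) (c : R) (f : R[X]) (x : Option R) : hv d (c • f) x = c * hv d f x := by
  cases x <;> simp

theorem hv_C_mul (d : ℕ) (c : R) (f : R[X]) (x : Option R) :
    hv d (C c * f) x = c * hv d f x := by
  cases x <;> simp

theorem hv_zero (d : ℕ) (x : Option R) : hv d (0 : R[X]) x = 0 := by
  cases x <;> simp

theorem hv_sum {ι : Type*} (s : Finset ι) (d : ℕ) (f : ι → R[X]) (x : Option R) :
    hv d (∑ i ∈ s, f i) x = ∑ i ∈ s, hv d (f i) x := by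
  cases x
  · simp
  · simp [eval_finsetSum]

theorem hv_mul {d e : ℕ} {f g : R[X]} (hf : f.natDegree ≤ d) (hg : g.natDegree ≤ e)
    (x : Option R) : hv (d + e) (f * g) x = hv d f x * hv e g x := by
  cases x
  · simp [coeff_mul_add_eq_of_natDegree_le hf hg]
  · simp

end hv

namespace Tr

variable {k : Type*} [Field k] {J : Type*} {io : J → Type*}

@[simp] theorem vd_inl (T : Tr k J io) (p : k) (S : Tr k J io) (a : T.Vx) :
    (glue T p S).vd (Sum.inl a) = T.vd a := rfl
@[simp] theorem vd_inr (T : Tr k J io) (p : k) (S : Tr k J io) (a : S.Vx) :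
    (glue T p S).vd (Sum.inr a) = S.vd a := rfl
@[simp] theorem vg_inl (T : Tr k J io) (p : k) (S : Tr k J io) (a : T.Vx) :
    (glue T p S).vg (Sum.inl a) = T.vg a := rfl
@[simp] theorem vg_inr (T : Tr k J io) (p : k) (S : Tr k J io) (a : S.Vx) :
    (glue T p S).vg (Sum.inr a) = S.vg a := rfl
theorem root_glue (T : Tr k J io) (p : k) (S : Tr k J io) :
    (glue T p S).root = Sum.inl T.root := rfl
theorem mem_hole_inl (T : Tr k J io) (p : k) (S : Tr k J io) (a : T.Vx) (x : k) :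
    x ∈ (glue T p S).hole (Sum.inl a) ↔ x ∈ T.hole a ∨ (a = T.root ∧ x = p) := Iff.rfl


theorem OK.natDegree_le : {T : Tr k J io} → T.OK → ∀ a j i, (T.vg a j i).natDegree ≤ T.vd a j
  | leaf _ _, h, _, j, i => h.1 j i
  | glue _ _ _, h, Sum.inl a, j, i => OK.natDegree_le h.1 a j i
  | glue _ _ _, h, Sum.inr a, j, i => OK.natDegree_le h.2.1 a j i

theorem OK.ev_ne : {T : Tr k J io} → T.OK → ∀ x j, ∃ i, T.ev x j i ≠ 0
  | leaf _ _, h, x, j => h.2 j x.2
  | glue _ _ _, h, (Sum.inl a, x), j => OK.ev_ne h.1 (a, x) j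
  | glue _ _ _, h, (Sum.inr a, x), j => OK.ev_ne h.2.1 (a, x) j

theorem sum_vd : (T : Tr k J io) → ∀ j, ∑ a, T.vd a j = T.deg j
  | leaf d _, j => by
    show ∑ _a : Unit, d j = d j
    simp
  | glue T p S, j => by
    show ∑ a : T.Vx ⊕ S.Vx, (glue T p S).vd a j = T.deg j + S.deg j
    rw [Fintype.sum_sum_type, ← sum_vd T j, ← sum_vd S j]
    rfl

theorem vd_le_deg (T : Tr k J io) (a : T.Vx) (j : J) : T.vd a j ≤ T.deg j := by
  rw [← sum_vd]
  exact Finset.single_le_sum (f := fun a => T.vd a j) (fun _ _ => Nat.zero_le _)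
    (Finset.mem_univ a)

variable [Fintype J]

theorem dot_add (kk d e : J → ℕ) : dot kk (fun j => d j + e j) = dot kk d + dot kk e := by
  simp [dot, mul_add, Finset.sum_add_distrib]


theorem val_add (kk : J → ℕ) (T : Tr k J io) (s t : T.Vx → k[X]) (x : T.Pt) :
    val kk T (s + t) x = val kk T s x + val kk T t x := hv_add _ _ _ _

theorem val_smul (kk : J → ℕ) (T : Tr k J io) (c : k) (s : T.Vx → k[X]) (x : T.Pt) :
    val kk T (c • s) x = c * val kk T s x := hv_smul _ _ _ _

theorem val_zero (kk : J → ℕ) (T : Tr k J io) (x : T.Pt) : val kk T 0 x = 0 := hv_zero _ _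

theorem IsSec.natDegree_le {kk : J → ℕ} : {T : Tr k J io} → {s : T.Vx → k[X]} →
    T.IsSec kk s → ∀ a, (s a).natDegree ≤ dot kk (T.vd a)
  | leaf _ _, _, h, _ => h
  | glue _ _ _, _, h, Sum.inl a => IsSec.natDegree_le h.1 a
  | glue _ _ _, _, h, Sum.inr a => IsSec.natDegree_le h.2.1 a

theorem isSec_zero (kk : J → ℕ) : (T : Tr k J io) → T.IsSec kk 0
  | leaf _ _ => by show (0 : k[X]).natDegree ≤ _; simp
  | glue T _ S => ⟨isSec_zero kk T, isSec_zero kk S, (val_zero kk S _).trans (val_zero kk T _).symm⟩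

theorem IsSec.add {kk : J → ℕ} : {T : Tr k J io} → {s t : T.Vx → k[X]} →
    T.IsSec kk s → T.IsSec kk t → T.IsSec kk (s + t)
  | leaf _ _, _, _, hs, ht => (natDegree_add_le _ _).trans (max_le hs ht)
  | glue T p S, s, t, hs, ht => by
    refine ⟨IsSec.add hs.1 ht.1, IsSec.add hs.2.1 ht.2.1, ?_⟩
    have h1 := val_add kk S (fun a => s (Sum.inr a)) (fun a => t (Sum.inr a)) (S.root, none)
    have h2 := val_add kk T (fun a => s (Sum.inl a)) (fun a => t (Sum.inl a)) (T.root, some p)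
    exact h1.trans (by rw [hs.2.2, ht.2.2]; exact h2.symm)

theorem IsSec.smul {kk : J → ℕ} (c : k) : {T : Tr k J io} → {s : T.Vx → k[X]} →
    T.IsSec kk s → T.IsSec kk (c • s)
  | leaf _ _, _, hs => (natDegree_smul_le _ _).trans hs
  | glue T p S, s, hs => by
    refine ⟨IsSec.smul c hs.1, IsSec.smul c hs.2.1, ?_⟩
    have h1 := val_smul kk S c (fun a => s (Sum.inr a)) (S.root, none)
    have h2 := val_smul kk T c (fun a => s (Sum.inl a)) (T.root, some p)
    exact h1.trans (by rw [hs.2.2]; exact h2.symm)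

/-- the space of sections of `O(kk)`. -/
def Sec (kk : J → ℕ) (T : Tr k J io) : Submodule k (T.Vx → k[X]) where
  carrier := {s | T.IsSec kk s}
  add_mem' := IsSec.add
  zero_mem' := isSec_zero kk T
  smul_mem' := fun c _ h => IsSec.smul c h

/-- evaluation at a point as a linear form. -/
noncomputable def valL (kk : J → ℕ) (T : Tr k J io) (x : T.Pt) : (T.Vx → k[X]) →ₗ[k] k where
  toFun s := val kk T s x
  map_add' s t := val_add kk T s t x
  map_smul' c s := val_smul kk T c s x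

theorem Same.refl (T : Tr k J io) (x : T.Pt) : T.Same x x := ⟨fun _ _ => rfl, fun _ _ _ => rfl⟩

theorem Same.symm {T : Tr k J io} {x y : T.Pt} (h : T.Same x y) : T.Same y x :=
  ⟨fun j i => (h.1 j i).symm, fun kk s hs => (h.2 kk s hs).symm⟩

theorem Same.trans {T : Tr k J io} {x y z : T.Pt} (h : T.Same x y) (h' : T.Same y z) :
    T.Same x z :=
  ⟨fun j i => (h.1 j i).trans (h'.1 j i), fun kk s hs => (h.2 kk s hs).trans (h'.2 kk s hs)⟩

theorem Same.inl {T : Tr k J io} (p : k) (S : Tr k J io) {x y : T.Pt} (h : T.Same x y) :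
    (glue T p S).Same (Sum.inl x.1, x.2) (Sum.inl y.1, y.2) :=
  ⟨h.1, fun kk _ hs => h.2 kk _ hs.1⟩

theorem Same.inr (T : Tr k J io) (p : k) {S : Tr k J io} {x y : S.Pt} (h : S.Same x y) :
    (glue T p S).Same (Sum.inr x.1, x.2) (Sum.inr y.1, y.2) :=
  ⟨h.1, fun kk _ hs => h.2 kk _ hs.2.1⟩

theorem same_node {T : Tr k J io} {p : k} {S : Tr k J io} (h : (glue T p S).OK) :
    (glue T p S).Same (Sum.inl T.root, some p) (Sum.inr S.root, none) :=
  ⟨fun j i => (h.2.2.2 j i).symm, fun _ _ hs => hs.2.2.symm⟩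



theorem Norming.mono {kk : J → ℕ} {T : Tr k J io} {Y Y' : Set T.Pt} (h : T.Norming kk Y)
    (hY : Y ⊆ Y') : T.Norming kk Y' := fun s hs h0 => h s hs fun y hy => h0 y (hY hy)

end Tr

end Crest.Agent.X262.Bub96
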