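import Crest.Agent.X262.Bub96.Defs
import Crest.Agent.X262.Bub96.Tree
import Crest.Agent.X262.Vb.Cfg

-- ▼ part X262/Bub96/Val
section

/-! # Reduction of elements and polynomials along a valuation ring -/

set_option autoImplicit false

namespace Crest.Agent.X262.Bub96

open Polynomial

namespace Rd

variable {K : Type*} [Field K] {k : Type*} [Field k] (R : Rd K k)

/-- the valuation. -/
noncomputable abbrev v : Valuation K R.O.ValueGroup := R.O.valuation

theorem mem_iff {x : K} : x ∈ R.O ↔ R.v x ≤ 1 := (R.O.valuation_le_one_iff x).symm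

theorem mem_of_lt {x : K} (h : R.v x < 1) : x ∈ R.O := R.mem_iff.2 h.le

theorem p_coe (x : R.O) : R.p x = R.red x := by
  unfold p; rw [dif_pos x.2]

theorem p_of_mem {x : K} (h : x ∈ R.O) : R.p x = R.red ⟨x, h⟩ := R.p_coe ⟨x, h⟩

theorem p_one : R.p 1 = 1 := by
  rw [R.p_of_mem R.O.one_mem]; exact map_one R.red

theorem p_add {x y : K} (hx : x ∈ R.O) (hy : y ∈ R.O) : R.p (x + y) = R.p x + R.p y := by
  rw [R.p_of_mem hx, R.p_of_mem hy, R.p_of_mem (R.O.add_mem _ _ hx hy), ← map_add]; rfl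

theorem p_mul {x y : K} (hx : x ∈ R.O) (hy : y ∈ R.O) : R.p (x * y) = R.p x * R.p y := by
  rw [R.p_of_mem hx, R.p_of_mem hy, R.p_of_mem (R.O.mul_mem _ _ hx hy), ← map_mul]; rfl

theorem p_neg {x : K} (hx : x ∈ R.O) : R.p (-x) = -R.p x := by
  rw [R.p_of_mem hx, R.p_of_mem (R.O.neg_mem _ hx), ← map_neg]; rfl

theorem p_sub {x y : K} (hx : x ∈ R.O) (hy : y ∈ R.O) : R.p (x - y) = R.p x - R.p y := by
  rw [sub_eq_add_neg, R.p_add hx (R.O.neg_mem _ hy), R.p_neg hy, sub_eq_add_neg]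

theorem p_pow {x : K} (hx : x ∈ R.O) (n : ℕ) : R.p (x ^ n) = R.p x ^ n := by
  induction n with
  | zero => simp [R.p_one]
  | succ n ih => rw [pow_succ, R.p_mul (pow_mem hx n) hx, ih, pow_succ]

theorem p_prod {ι : Type*} (s : Finset ι) (f : ι → K) (h : ∀ i ∈ s, f i ∈ R.O) :
    R.p (∏ i ∈ s, f i) = ∏ i ∈ s, R.p (f i) := by
  classical
  induction s using Finset.induction_on with
  | empty => simp [R.p_one]
  | insert a s ha ih =>
    rw [Finset.prod_insert ha, Finset.prod_insert ha,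
      R.p_mul (h a (Finset.mem_insert_self _ _))
        (prod_mem fun i hi => h i (Finset.mem_insert_of_mem hi)),
      ih fun i hi => h i (Finset.mem_insert_of_mem hi)]


theorem p_eq_zero_iff {x : K} (hx : x ∈ R.O) : R.p x = 0 ↔ R.v x < 1 := by
  rw [R.p_of_mem hx]; exact R.ker ⟨x, hx⟩

theorem p_eq_zero_of_lt {x : K} (h : R.v x < 1) : R.p x = 0 :=
  (R.p_eq_zero_iff (R.mem_of_lt h)).2 h

theorem v_eq_one {x : K} (hx : x ∈ R.O) (h : R.p x ≠ 0) : R.v x = 1 :=
  le_antisymm (R.mem_iff.1 hx) (not_lt.1 fun h' => h (R.p_eq_zero_of_lt h'))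

theorem p_ne_zero {x : K} (h : R.v x = 1) : R.p x ≠ 0 := fun h' =>
  absurd ((R.p_eq_zero_iff (R.mem_iff.2 h.le)).1 h') (by rw [h]; exact lt_irrefl _)

theorem p_congr {x y : K} (hx : x ∈ R.O) (h : R.v (y - x) < 1) : y ∈ R.O ∧ R.p y = R.p x := by
  have hd := R.mem_of_lt h
  have e : y = x + (y - x) := by ring
  refine ⟨by rw [e]; exact R.O.add_mem _ _ hx hd, ?_⟩
  rw [e, R.p_add hx hd, R.p_eq_zero_of_lt h, add_zero]

theorem v_sub_lt {x y : K} (hx : x ∈ R.O) (hy : y ∈ R.O) (h : R.p x = R.p y) :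
    R.v (x - y) < 1 := by
  rw [← R.p_eq_zero_iff (sub_mem hx hy), R.p_sub hx hy, h, sub_self]

theorem exists_lift (z : k) : ∃ x ∈ R.O, R.p x = z := by
  obtain ⟨x, hx⟩ := R.surj z
  exact ⟨x, x.2, by rw [R.p_coe, hx]⟩


/-! ### polynomials -/

theorem coeff_pP (f : K[X]) (n : ℕ) : (R.pP f).coeff n = R.p (f.coeff n) := by
  classical
  unfold pP
  rw [Polynomial.sum, finsetSum_coeff]
  simp only [coeff_monomial]
  rw [Finset.sum_ite_eq']
  split_ifs with h
  · rfl
  · rw [notMem_support_iff.1 h, R.p_zero]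

theorem pP_map (f : R.O[X]) : R.pP (f.map R.O.subtype) = f.map R.red := by
  ext n
  rw [coeff_pP, coeff_map, coeff_map]
  exact R.p_coe _

theorem pInt_map (f : R.O[X]) : PInt R.O (f.map R.O.subtype) := fun n => by
  rw [coeff_map]; exact (f.coeff n).2

theorem exists_map {f : K[X]} (h : PInt R.O f) : ∃ g : R.O[X], g.map R.O.subtype = f := by
  rw [← mem_lifts, lifts_iff_coeff_lifts]
  intro n
  exact ⟨⟨_, h n⟩, rfl⟩

variable {R}

theorem _root_.Crest.Agent.X262.Bub96.PInt.mul {f g : K[X]} (hf : PInt R.O f)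
    (hg : PInt R.O g) : PInt R.O (f * g) ∧ R.pP (f * g) = R.pP f * R.pP g := by
  obtain ⟨f, rfl⟩ := R.exists_map hf
  obtain ⟨g, rfl⟩ := R.exists_map hg
  rw [← Polynomial.map_mul, pP_map, pP_map, pP_map]
  exact ⟨R.pInt_map _, Polynomial.map_mul _⟩

theorem _root_.Crest.Agent.X262.Bub96.PInt.add {f g : K[X]} (hf : PInt R.O f)
    (hg : PInt R.O g) : PInt R.O (f + g) ∧ R.pP (f + g) = R.pP f + R.pP g := by
  obtain ⟨f, rfl⟩ := R.exists_map hf
  obtain ⟨g, rfl⟩ := R.exists_map hg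
  rw [← Polynomial.map_add, pP_map, pP_map, pP_map]
  exact ⟨R.pInt_map _, Polynomial.map_add _⟩

theorem _root_.Crest.Agent.X262.Bub96.PInt.comp {f g : K[X]} (hf : PInt R.O f)
    (hg : PInt R.O g) : PInt R.O (f.comp g) ∧ R.pP (f.comp g) = (R.pP f).comp (R.pP g) := by
  obtain ⟨f, rfl⟩ := R.exists_map hf
  obtain ⟨g, rfl⟩ := R.exists_map hg
  rw [← Polynomial.map_comp, pP_map, pP_map, pP_map]
  exact ⟨R.pInt_map _, Polynomial.map_comp _ _ _⟩

theorem _root_.Crest.Agent.X262.Bub96.PInt.eval {f : K[X]} (hf : PInt R.O f) {x : K}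
    (hx : x ∈ R.O) : f.eval x ∈ R.O ∧ R.p (f.eval x) = (R.pP f).eval (R.p x) := by
  obtain ⟨f, rfl⟩ := R.exists_map hf
  have e : (f.map R.O.subtype).eval x = ((f.eval ⟨x, hx⟩ : R.O) : K) := by
    have := Polynomial.eval_map_apply (p := f) R.O.subtype ⟨x, hx⟩
    simpa using this
  rw [e, pP_map, R.p_coe, R.p_of_mem hx, Polynomial.eval_map_apply]
  exact ⟨(f.eval ⟨x, hx⟩).2, rfl⟩

theorem pInt_C {x : K} (hx : x ∈ R.O) : PInt R.O (C x) ∧ R.pP (C x) = C (R.p x) := by
  have : (C x : K[X]) = (C (⟨x, hx⟩ : R.O)).map R.O.subtype := by simp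
  rw [this, pP_map, R.p_of_mem hx]
  exact ⟨R.pInt_map _, by simp⟩

theorem pInt_X : PInt R.O (X : K[X]) ∧ R.pP (X : K[X]) = X := by
  have : (X : K[X]) = (X : R.O[X]).map R.O.subtype := by simp
  rw [this, pP_map]
  exact ⟨R.pInt_map _, by simp⟩

theorem pInt_aff {x ρ : K} (hx : x ∈ R.O) (hρ : ρ ∈ R.O) :
    PInt R.O (C x + C ρ * X) ∧ R.pP (C x + C ρ * X) = C (R.p x) + C (R.p ρ) * X := by
  obtain ⟨h1, e1⟩ := (pInt_C hρ).1.mul (pInt_X (R := R)).1
  obtain ⟨h2, e2⟩ := (pInt_C hx).1.add h1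
  exact ⟨h2, by rw [e2, e1, (pInt_C hx).2, (pInt_C hρ).2, pInt_X.2]⟩

theorem pInt_sum {ι : Type*} (s : Finset ι) (f : ι → K[X]) (h : ∀ i ∈ s, PInt R.O (f i)) :
    PInt R.O (∑ i ∈ s, f i) ∧ R.pP (∑ i ∈ s, f i) = ∑ i ∈ s, R.pP (f i) := by
  classical
  induction s using Finset.induction_on with
  | empty =>
    simp only [Finset.sum_empty]
    have := pInt_C (R := R) R.O.zero_mem
    rw [R.p_zero, C_0, C_0] at this
    exact this
  | insert a s ha ih =>
    obtain ⟨h1, e1⟩ := ih fun i hi => h i (Finset.mem_insert_of_mem hi)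
    obtain ⟨h2, e2⟩ := (h a (Finset.mem_insert_self _ _)).add h1
    rw [Finset.sum_insert ha, Finset.sum_insert ha]
    exact ⟨h2, by rw [e2, e1]⟩

variable (R)

/-- Gauss norm. -/
noncomputable def gn (f : K[X]) : R.O.ValueGroup := f.support.sup fun n => R.v (f.coeff n)

theorem le_gn (f : K[X]) (n : ℕ) : R.v (f.coeff n) ≤ R.gn f := by
  by_cases h : n ∈ f.support
  · exact Finset.le_sup (f := fun n => R.v (f.coeff n)) h
  · rw [notMem_support_iff.1 h, map_zero]; exact zero_le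

theorem gn_le_iff {f : K[X]} {c : R.O.ValueGroup} : R.gn f ≤ c ↔ ∀ n, R.v (f.coeff n) ≤ c :=
  ⟨fun h n => (R.le_gn f n).trans h, fun h => Finset.sup_le fun n _ => h n⟩

theorem gn_le_one_iff {f : K[X]} : R.gn f ≤ 1 ↔ PInt R.O f := by
  rw [gn_le_iff]; exact forall_congr' fun n => R.mem_iff.symm

theorem gn_lt_one {f : K[X]} (hf : PInt R.O f) (h : R.pP f = 0) : R.gn f < 1 := by
  unfold gn
  rw [Finset.sup_lt_iff (by rw [bot_eq_zero]; exact zero_lt_one)]
  intro n _
  rw [← R.p_eq_zero_iff (hf n), ← coeff_pP, h, coeff_zero]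

theorem gn_eq_zero {f : K[X]} (h : R.gn f = 0) : f = 0 := by
  ext n
  have := R.le_gn f n
  rw [h, le_zero_iff, map_eq_zero] at this
  rw [this, coeff_zero]

theorem gn_C_mul (c : K) (f : K[X]) : R.gn (C c * f) = R.v c * R.gn f := by
  have key : ∀ (c : K) (f : K[X]), R.gn (C c * f) ≤ R.v c * R.gn f := fun c f =>
    R.gn_le_iff.2 fun n => by
      rw [coeff_C_mul, map_mul]; exact mul_le_mul_right (R.le_gn f n) _
  refine le_antisymm (key c f) ?_
  by_cases hc : c = 0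
  · rw [hc, map_zero, zero_mul]; exact zero_le
  · have h := key c⁻¹ (C c * f)
    rw [← mul_assoc, ← C_mul, inv_mul_cancel₀ hc, C_1, one_mul, map_inv₀] at h
    have hv : R.v c ≠ 0 := by simpa using hc
    calc R.v c * R.gn f ≤ R.v c * ((R.v c)⁻¹ * R.gn (C c * f)) := mul_le_mul_right h _
      _ = _ := by rw [← mul_assoc, mul_inv_cancel₀ hv, one_mul]

/-- scaling to norm one. -/
theorem exists_scale {γ : R.O.ValueGroup} (h : γ ≠ 0) : ∃ c : K, c ≠ 0 ∧ R.v c * γ = 1 := by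
  obtain ⟨c, hc⟩ := R.O.valuation_surjective γ⁻¹
  refine ⟨c, ?_, by rw [show R.v c = γ⁻¹ from hc, inv_mul_cancel₀ h]⟩
  rintro rfl
  rw [map_zero] at hc
  exact inv_ne_zero h hc.symm

variable {R}

/-- Gauss lemma: division by a primitive polynomial. -/
theorem pInt_of_mul {A Q : K[X]} (hA : PInt R.O A) (hA0 : R.pP A ≠ 0) (h : PInt R.O (A * Q)) :
    PInt R.O Q := by
  by_cases hQ : Q = 0
  · rw [hQ]; intro n; rw [coeff_zero]; exact R.O.zero_mem
  obtain ⟨c, hc0, hc⟩ := R.exists_scale (γ := R.gn Q) fun h => hQ (R.gn_eq_zero h)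
  have h1 : R.gn (C c * Q) = 1 := by rw [gn_C_mul, hc]
  have hI : PInt R.O (C c * Q) := R.gn_le_one_iff.1 h1.le
  have hne : R.pP (C c * Q) ≠ 0 := fun h0 => absurd (R.gn_lt_one hI h0) (by rw [h1]; simp)
  obtain ⟨hI2, e2⟩ := hA.mul hI
  have hne2 : R.pP (A * (C c * Q)) ≠ 0 := by rw [e2]; exact mul_ne_zero hA0 hne
  have hge : 1 ≤ R.gn (A * (C c * Q)) := by
    by_contra hlt
    apply hne2
    ext n
    rw [coeff_pP, coeff_zero]
    exact R.p_eq_zero_of_lt ((R.le_gn _ n).trans_lt (not_le.1 hlt))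
  rw [show A * (C c * Q) = C c * (A * Q) by ring, gn_C_mul] at hge
  have hc1 : 1 ≤ R.v c := hge.trans (by
    calc R.v c * R.gn (A * Q) ≤ R.v c * 1 := mul_le_mul_right (R.gn_le_one_iff.2 h) _
      _ = R.v c := mul_one _)
  rw [← R.gn_le_one_iff]
  calc R.gn Q = 1 * R.gn Q := (one_mul _).symm
    _ ≤ R.v c * R.gn Q := mul_le_mul_left hc1 _
    _ = 1 := hc

/-- roots of the reduction lift. -/
theorem exists_root [IsAlgClosed K] {P : K[X]} (hP : PInt R.O P) (h0 : R.pP P ≠ 0) {z : k}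
    (hz : (R.pP P).IsRoot z) : ∃ y ∈ R.O, R.p y = z ∧ P.eval y = 0 := by
  induction hn : P.natDegree using Nat.strong_induction_on generalizing P with
  | _ n ih =>
  have hP0 : P ≠ 0 := by
    rintro rfl
    apply h0; ext n; rw [coeff_pP, coeff_zero, R.p_zero, coeff_zero]
  by_cases hd : P.degree = 0
  · exfalso
    have e : P = C (P.coeff 0) := eq_C_of_degree_eq_zero hd
    have := (pInt_C (R := R) (hP 0)).2
    rw [← e] at this
    rw [this] at hz h0
    apply h0
    have : R.p (P.coeff 0) = 0 := by simpa using hz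
    rw [this, C_0]
  obtain ⟨r, hr⟩ := IsAlgClosed.exists_root P hd
  obtain ⟨Q, hQ⟩ := dvd_iff_isRoot.2 hr
  have hQ0 : Q ≠ 0 := by rintro rfl; exact hP0 (by rw [hQ, mul_zero])
  have hdeg : Q.natDegree < n := by
    rw [← hn, hQ, natDegree_mul (X_sub_C_ne_zero r) hQ0, natDegree_X_sub_C]; omega
  by_cases hrO : r ∈ R.O
  · obtain ⟨hA, eA⟩ := pInt_aff (R := R) (R.O.neg_mem _ hrO) R.O.one_mem
    have eq1 : (C (-r) + C 1 * X : K[X]) = X - C r := by simp; ring
    rw [eq1] at hA eA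
    rw [R.p_one, R.p_neg hrO] at eA
    have eA' : R.pP (X - C r) = X - C (R.p r) := by rw [eA]; simp; ring
    have hQI : PInt R.O Q := pInt_of_mul hA (by rw [eA']; exact X_sub_C_ne_zero _) (hQ ▸ hP)
    have e2 := (hA.mul hQI).2
    rw [← hQ, eA'] at e2
    by_cases hzr : R.p r = z
    · exact ⟨r, hrO, hzr, hr⟩
    · have hz' : (R.pP Q).IsRoot z := by
        rw [e2, IsRoot, eval_mul] at hz
        rcases mul_eq_zero.1 hz with h | h
        · rw [eval_sub, eval_X, eval_C, sub_eq_zero] at h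
          exact absurd h.symm hzr
        · exact h
      obtain ⟨y, hy, hyz, hy0⟩ := ih _ hdeg hQI (fun h => h0 (by rw [e2, h, mul_zero])) hz' rfl
      exact ⟨y, hy, hyz, by rw [hQ, eval_mul, hy0, mul_zero]⟩
  · have hr0 : r ≠ 0 := by rintro rfl; exact hrO R.O.zero_mem
    have hlt : R.v (-r⁻¹) < 1 := by
      rw [Valuation.map_neg, map_inv₀]
      exact inv_lt_one_of_one_lt₀ (not_le.1 fun h => hrO (R.mem_iff.2 h))
    obtain ⟨hA, eA⟩ := pInt_aff (R := R) R.O.one_mem (R.mem_of_lt hlt)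
    rw [R.p_one, R.p_eq_zero_of_lt hlt, C_0, zero_mul, add_zero, C_1 (R := k)] at eA
    have hfac : P = (C 1 + C (-r⁻¹) * X) * (C (-r) * Q) := by
      rw [hQ, ← mul_assoc]
      congr 1
      rw [add_mul, ← C_mul, mul_right_comm, ← C_mul]
      simp [hr0]; ring
    have hQI : PInt R.O (C (-r) * Q) :=
      pInt_of_mul hA (by rw [eA]; exact one_ne_zero) (hfac ▸ hP)
    have e2 := (hA.mul hQI).2
    rw [← hfac, eA, one_mul] at e2
    have hdeg' : (C (-r) * Q).natDegree < n := (natDegree_C_mul_le _ _).trans_lt hdeg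
    obtain ⟨y, hy, hyz, hy0⟩ := ih _ hdeg' hQI (e2 ▸ h0) (e2 ▸ hz) rfl
    exact ⟨y, hy, hyz, by rw [hfac, eval_mul, hy0, mul_zero]⟩

/-- value on an annulus: the term of degree `M` dominates. -/
theorem annulus {Q : K[X]} {M : ℕ} {w : K} (hw : 1 < R.v w) (hlo : ∀ l ≤ M, Q.coeff l ∈ R.O)
    (hhi : ∀ l, M < l → R.v (Q.coeff l) * R.v w ^ (l - M) < 1) :
    (w ^ M)⁻¹ * Q.eval w ∈ R.O ∧ R.p ((w ^ M)⁻¹ * Q.eval w) = R.p (Q.coeff M) := by
  classical
  have hw0 : w ≠ 0 := by rintro rfl; simp at hw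
  apply R.p_congr (hlo M le_rfl)
  have e : (w ^ M)⁻¹ * Q.eval w - Q.coeff M =
      ∑ l ∈ (Finset.range (Q.natDegree + M + 1)).erase M, (w ^ M)⁻¹ * (Q.coeff l * w ^ l) := by
    rw [eval_eq_sum_range' (n := Q.natDegree + M + 1) (by omega), Finset.mul_sum,
      ← Finset.add_sum_erase _ _ (Finset.mem_range.2 (by omega : M < Q.natDegree + M + 1))]
    field_simp
    ring
  rw [e]
  apply Valuation.map_sum_lt _ one_ne_zero
  intro l hl
  rcases lt_or_gt_of_ne (Finset.ne_of_mem_erase hl) with h | h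
  · obtain ⟨t, rfl⟩ := Nat.exists_eq_add_of_lt h
    have : (w ^ (l + t + 1))⁻¹ * (Q.coeff l * w ^ l) = Q.coeff l * (w⁻¹) ^ (t + 1) := by
      rw [inv_pow]
      field_simp
      ring
    rw [this, map_mul, map_pow, map_inv₀]
    calc R.v (Q.coeff l) * (R.v w)⁻¹ ^ (t + 1) ≤ 1 * (R.v w)⁻¹ ^ (t + 1) :=
          mul_le_mul_left (R.mem_iff.1 (hlo l h.le)) _
      _ < 1 := by
          rw [one_mul]
          exact pow_lt_one₀ zero_le (inv_lt_one_of_one_lt₀ hw) (by omega)
  · obtain ⟨t, rfl⟩ := Nat.exists_eq_add_of_lt h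
    have : (w ^ M)⁻¹ * (Q.coeff (M + t + 1) * w ^ (M + t + 1)) =
        Q.coeff (M + t + 1) * w ^ (M + t + 1 - M) := by
      rw [show M + t + 1 - M = t + 1 by omega]
      field_simp
      ring
    rw [this, map_mul, map_pow]
    exact hhi _ h

end Rd

end Crest.Agent.X262.Bub96
end

-- ▼ part X262/Bub96/ExA
section

/-! # The reduction tree: solutions on open and closed discs, attaching the holes -/

set_option autoImplicit false

namespace Crest.Agent.X262.Bub96

open Polynomial Tr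

variable {K : Type*} [Field K] {k : Type*} [Field k] (R : Rd K k) {J : Type*} [Fintype J]
  {io : J → Type*}

/-- normalised value of a form. -/
noncomputable def lam (nrm : K → J → K) (kk : J → ℕ) (σ : K[X]) (y : K) : K :=
  (∏ j, nrm y j ^ kk j) * σ.eval y

/-- the disc of a vertex. -/
def Chart (F : (j : J) → io j → K[X]) (T : Tr k J io) (sp : K → T.Pt) (A : Set K)
    (a : T.Vx) : Prop :=
  ∃ (x ρ : K) (c : J → K) (h : J → k[X]), ρ ≠ 0 ∧ (∀ j, h j ≠ 0) ∧
    (∀ j i, PInt R.O (C (c j) * (F j i).comp (C x + C ρ * X)) ∧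
      R.pP (C (c j) * (F j i).comp (C x + C ρ * X)) = h j * T.vg a j i) ∧
    (∀ z, z ∈ T.hole a ↔ ∃ j, (h j).IsRoot z) ∧
    ∀ u ∈ R.O, R.p u ∉ T.hole a → x + ρ * u ∈ A ∧ sp (x + ρ * u) = (a, some (R.p u))

theorem comp_aff_aff (F : K[X]) (x0 ρ0 x ρ : K) :
    (F.comp (C x0 + C ρ0 * X)).comp (C x + C ρ * X) =
      F.comp (C (x0 + ρ0 * x) + C (ρ0 * ρ) * X) := by
  rw [comp_assoc]
  congr 1
  simp only [add_comp, mul_comp, C_comp, X_comp, C_add, C_mul]
  ring

omit [Fintype J] in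
variable {R} in
theorem Chart.transport {F F' : (j : J) → io j → K[X]} {T T' : Tr k J io} {sp : K → T.Pt}
    {sp' : K → T'.Pt} {A A' : Set K} {a : T.Vx} {a' : T'.Vx} {x0 ρ0 : K} {e : J → K}
    (hF : ∀ j i, F' j i = C (e j) * (F j i).comp (C x0 + C ρ0 * X)) (hρ : ρ0 ≠ 0)
    (hg : T.vg a = T'.vg a') (hh : T.hole a = T'.hole a')
    (hsp : ∀ w ∈ A', ∀ z, sp' w = (a', z) → x0 + ρ0 * w ∈ A ∧ sp (x0 + ρ0 * w) = (a, z))
    (h : Chart R F' T' sp' A' a') : Chart R F T sp A a := by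
  obtain ⟨x, ρ, c, h', hρ', hh', hP, hr, hu⟩ := h
  refine ⟨x0 + ρ0 * x, ρ0 * ρ, fun j => c j * e j, h', mul_ne_zero hρ hρ', hh', fun j i => ?_,
    fun z => hh ▸ hr z, fun u huO hu' => ?_⟩
  · have := hP j i
    rw [hF, mul_comp, C_comp, comp_aff_aff, ← mul_assoc, ← C_mul] at this
    rw [hg]; exact this
  · obtain ⟨h1, h2⟩ := hu u huO (hh ▸ hu')
    have := hsp _ h1 _ h2
    rwa [show x0 + ρ0 * (x + ρ * u) = x0 + ρ0 * x + ρ0 * ρ * u by ring] at this

/-- hypotheses on the open unit disc. -/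
structure OH (m : J → ℕ) (F : (j : J) → io j → K[X]) : Prop where
  int : ∀ j i, PInt R.O (F j i)
  low : ∀ j i l, l < m j → R.v ((F j i).coeff l) < 1
  top : ∀ j, ∃ i, R.p ((F j i).coeff (m j)) ≠ 0
  cop : ∀ y, R.v y < 1 → ∀ j, ∃ i, (F j i).eval y ≠ 0

/-- hypotheses on the closed unit disc. -/
structure CH (m : J → ℕ) (F : (j : J) → io j → K[X]) : Prop where
  int : ∀ j i, PInt R.O (F j i)
  deg : ∀ j i, (R.pP (F j i)).natDegree ≤ m j
  top : ∀ j, ∃ i, R.p ((F j i).coeff (m j)) ≠ 0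
  cop : ∀ y ∈ R.O, ∀ j, ∃ i, (F j i).eval y ≠ 0

/-- solution on the open unit disc. -/
structure Op (m : J → ℕ) (F : (j : J) → io j → K[X]) where
  S : Tr k J io
  ok : S.OK
  deg : S.deg = m
  top : ∀ j i, S.ev (S.root, none) j i = R.p ((F j i).coeff (m j))
  sp : K → S.Pt
  nrm : K → J → K
  ν : (J → ℕ) → K[X] → R.O.ValueGroup
  ev : ∀ y, R.v y < 1 → ∀ j i, nrm y j * (F j i).eval y ∈ R.O ∧
    R.p (nrm y j * (F j i).eval y) = S.ev (sp y) j i
  surj : ∀ pt, ∃ y, R.v y < 1 ∧ S.Same pt (sp y)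
  ν_mul : ∀ kk c σ, ν kk (C c * σ) = R.v c * ν kk σ
  ν_low : ∀ kk σ, ν kk σ ≤ 1 → PInt R.O σ → ∀ l < dot kk m, R.v (σ.coeff l) < 1
  sec : ∀ kk σ, ν kk σ ≤ 1 → PInt R.O σ → ∃ s, S.IsSec kk s ∧
    val kk S s (S.root, none) = R.p (σ.coeff (dot kk m)) ∧
    (∀ y, R.v y < 1 → lam nrm kk σ y ∈ R.O ∧ R.p (lam nrm kk σ y) = val kk S s (sp y)) ∧
    (s = 0 → ν kk σ < 1)
  chart : ∀ a, Chart R F S sp {y | R.v y < 1} a

/-- solution on the closed unit disc. -/
structure Cs (m : J → ℕ) (F : (j : J) → io j → K[X]) where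
  T : Tr k J io
  ok : T.OK
  deg : T.deg = m
  top : ∀ j i, T.ev (T.root, none) j i = R.p ((F j i).coeff (m j))
  sp : K → T.Pt
  nrm : K → J → K
  ν : (J → ℕ) → K[X] → R.O.ValueGroup
  ev : ∀ y ∈ R.O, ∀ j i, nrm y j * (F j i).eval y ∈ R.O ∧
    R.p (nrm y j * (F j i).eval y) = T.ev (sp y) j i
  surj : ∀ pt, pt = (T.root, none) ∨ ∃ y ∈ R.O, T.Same pt (sp y)
  ν_mul : ∀ kk c σ, ν kk (C c * σ) = R.v c * ν kk σ
  ν_gn : ∀ kk σ, R.gn σ ≤ ν kk σ
  sec : ∀ kk σ, ν kk σ ≤ 1 → (R.pP σ).natDegree ≤ dot kk m → ∃ s, T.IsSec kk s ∧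
    val kk T s (T.root, none) = R.p (σ.coeff (dot kk m)) ∧
    (∀ y ∈ R.O, lam nrm kk σ y ∈ R.O ∧ R.p (lam nrm kk σ y) = val kk T s (sp y)) ∧
    (s = 0 → ν kk σ < 1)
  chart : ∀ a, Chart R F T sp (R.O : Set K) a

/-- admissible points when only the holes in `H` have been filled. -/
def Adm (h : J → k[X]) (H : Finset k) (y : K) : Prop :=
  y ∈ R.O ∧ (R.p y ∈ H ∨ ∀ j, ¬ (h j).IsRoot (R.p y))

/-- partial solution on the closed disc. -/
structure ClH (F : (j : J) → io j → K[X]) (h : J → k[X]) (d0 : J → ℕ)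
    (g : (j : J) → io j → k[X]) (H : Finset k) where
  T : Tr k J io
  ok : T.OK
  rd : T.vd T.root = d0
  rg : T.vg T.root = g
  rh : T.hole T.root = ↑H
  deg : ∀ j, T.deg j = d0 j + ∑ p ∈ H, rootMultiplicity p (h j)
  sp : K → T.Pt
  nrm : K → J → K
  ν : (J → ℕ) → K[X] → R.O.ValueGroup
  ev : ∀ y, Adm R h H y → ∀ j i, nrm y j * (F j i).eval y ∈ R.O ∧
    R.p (nrm y j * (F j i).eval y) = T.ev (sp y) j i
  surj : ∀ pt, pt = (T.root, none) ∨ (∃ z, pt = (T.root, some z) ∧ z ∉ H ∧ ∃ j, (h j).IsRoot z) ∨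
    ∃ y, Adm R h H y ∧ T.Same pt (sp y)
  ν_mul : ∀ kk c σ, ν kk (C c * σ) = R.v c * ν kk σ
  ν_gn : ∀ kk σ, R.gn σ ≤ ν kk σ
  ν_dvd : ∀ kk σ, ν kk σ ≤ 1 → ∀ p ∈ H,
    (X - C p) ^ dot kk (fun j => rootMultiplicity p (h j)) ∣ R.pP σ
  sec : ∀ kk σ, ν kk σ ≤ 1 → ∀ s0, R.pP σ = (∏ j, h j ^ kk j) * s0 →
    s0.natDegree ≤ dot kk d0 → ∃ s, T.IsSec kk s ∧ s T.root = s0 ∧
    (∀ y, Adm R h H y → lam nrm kk σ y ∈ R.O ∧ R.p (lam nrm kk σ y) = val kk T s (sp y)) ∧
    (s = 0 → ν kk σ < 1)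
  chart : ∀ a, a = T.root ∨ Chart R F T sp {y | y ∈ R.O ∧ R.p y ∈ H} a
  root_sp : ∀ u ∈ R.O, R.p u ∉ H → sp u = (T.root, some (R.p u))

variable {R}

theorem clH_empty {F : (j : J) → io j → K[X]} {h : J → k[X]} {d0 : J → ℕ}
    {g : (j : J) → io j → k[X]} (hint : ∀ j i, PInt R.O (F j i))
    (hfac : ∀ j i, R.pP (F j i) = h j * g j i) (hok : (leaf d0 g : Tr k J io).OK) :
    Nonempty (ClH R F h d0 g ∅) := by
  choose lf hlf hlf' using R.exists_lift
  refine ⟨{
    T := leaf d0 g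
    ok := hok
    rd := rfl
    rg := rfl
    rh := by simp [hole]
    deg := fun j => by simp [Tr.deg]
    sp := fun y => ((), some (R.p y))
    nrm := fun y j => lf ((h j).eval (R.p y))⁻¹
    ν := fun _ σ => R.gn σ
    ev := ?_
    surj := ?_
    ν_mul := fun _ c σ => R.gn_C_mul c σ
    ν_gn := fun _ _ => le_rfl
    ν_dvd := fun _ _ _ p hp => absurd hp (Finset.notMem_empty _)
    sec := ?_
    chart := fun a => Or.inl rfl
    root_sp := fun _ _ _ => rfl }⟩
  · rintro y ⟨hy, hA⟩ j i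
    have hA' := hA.resolve_left (Finset.notMem_empty _) j
    obtain ⟨h1, h2⟩ := (hint j i).eval hy
    refine ⟨R.O.mul_mem _ _ (hlf _) h1, ?_⟩
    rw [R.p_mul (hlf _) h1, hlf', h2, hfac, eval_mul, ← mul_assoc, inv_mul_cancel₀ hA', one_mul]
    rfl
  · rintro ⟨⟨⟩, _ | z⟩
    · exact Or.inl rfl
    · by_cases hz : ∃ j, (h j).IsRoot z
      · exact Or.inr (Or.inl ⟨z, rfl, Finset.notMem_empty _, hz⟩)
      · refine Or.inr (Or.inr ⟨lf z, ⟨hlf z, Or.inr fun j hj => hz ⟨j, hlf' z ▸ hj⟩⟩, ?_⟩)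
        rw [hlf']
        exact Same.refl _ _
  · intro kk σ hν s0 hs0 hdeg
    have hσ := R.gn_le_one_iff.1 hν
    refine ⟨fun _ => s0, hdeg, rfl, ?_, fun h0 => R.gn_lt_one hσ ?_⟩
    · rintro y ⟨hy, hA⟩
      have hA' := hA.resolve_left (Finset.notMem_empty _)
      obtain ⟨h1, h2⟩ := hσ.eval hy
      have hp : (∏ j, lf ((h j).eval (R.p y))⁻¹ ^ kk j) ∈ R.O :=
        prod_mem fun j _ => pow_mem (hlf _) _
      refine ⟨R.O.mul_mem _ _ hp h1, ?_⟩
      unfold lam
      rw [R.p_mul hp h1, R.p_prod _ _ fun j _ => pow_mem (hlf _) _, h2, hs0, eval_mul,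
        ← mul_assoc, eval_prod, ← Finset.prod_mul_distrib, Finset.prod_eq_one, one_mul]
      · rfl
      · intro j _
        rw [R.p_pow (hlf _), hlf', eval_pow, ← mul_pow, inv_mul_cancel₀ (hA' j), one_pow]
    · rw [hs0, show s0 = 0 from congrFun h0 (), mul_zero]

theorem shift_fac (p : k) (n : ℕ) (q : k[X]) :
    ((X - C p) ^ n * q).comp (C p + C 1 * X) = X ^ n * q.comp (C p + C 1 * X) := by
  simp [mul_comp, pow_comp, sub_comp]

theorem coeff_shift_self (p : k) (n : ℕ) (q : k[X]) :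
    (X ^ n * q.comp (C p + C 1 * X)).coeff n = q.eval p := by
  rw [coeff_X_pow_mul', if_pos le_rfl, Nat.sub_self, coeff_zero_eq_eval_zero, eval_comp]
  simp

theorem dvd_of_shift {p : k} {n : ℕ} {q : k[X]} {c : k} (hc : c ≠ 0)
    (h : X ^ n ∣ C c * q.comp (C p + C 1 * X)) : (X - C p) ^ n ∣ q := by
  obtain ⟨w, hw⟩ := h
  refine ⟨C c⁻¹ * w.comp (X - C p), ?_⟩
  have := congrArg (fun f => C c⁻¹ * f.comp (X - C p)) hw
  simp only [mul_comp, C_comp, comp_assoc, add_comp, X_comp, pow_comp] at this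
  rw [← mul_assoc, ← C_mul, inv_mul_cancel₀ hc, C_1, one_mul, one_mul, add_sub_cancel,
    comp_X] at this
  rw [this]; ring

theorem clH_insert [DecidableEq k] {F : (j : J) → io j → K[X]} {h : J → k[X]} {d0 : J → ℕ}
    {g : (j : J) → io j → k[X]} (hint : ∀ j i, PInt R.O (F j i))
    (hfac : ∀ j i, R.pP (F j i) = h j * g j i) (hh : ∀ j, h j ≠ 0)
    (hg : ∀ j z, ∃ i, (g j i).eval z ≠ 0) (hcop : ∀ y ∈ R.O, ∀ j, ∃ i, (F j i).eval y ≠ 0)
    {H : Finset k} {p : k} (hp : p ∉ H)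
    (hop : ∀ F' : (j : J) → io j → K[X], OH R (fun j => rootMultiplicity p (h j)) F' →
      Nonempty (Op R (fun j => rootMultiplicity p (h j)) F'))
    (A : ClH R F h d0 g H) : Nonempty (ClH R F h d0 g (insert p H)) := by
  classical
  obtain ⟨pt, hpt, hpt'⟩ := R.exists_lift p
  choose h' hh' hnd using fun j => exists_eq_pow_rootMultiplicity_mul_and_not_dvd (h j) (hh j) p
  have hne : ∀ j, (h' j).eval p ≠ 0 := fun j h0 => hnd j (dvd_iff_isRoot.2 h0)
  choose e he he' using fun j => R.exists_lift ((h' j).eval p)⁻¹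
  set μ : J → ℕ := fun j => rootMultiplicity p (h j) with hμ
  obtain ⟨hL, eL⟩ := Rd.pInt_aff (R := R) hpt R.O.one_mem
  rw [hpt', R.p_one] at eL
  -- shifting an integral polynomial
  have shift : ∀ (c : K) (σ : K[X]), c ∈ R.O → PInt R.O σ →
      PInt R.O (C c * σ.comp (C pt + C 1 * X)) ∧
      R.pP (C c * σ.comp (C pt + C 1 * X)) = C (R.p c) * (R.pP σ).comp (C p + C 1 * X) := by
    intro c σ hc hσ
    obtain ⟨h1, e1⟩ := hσ.comp hL
    obtain ⟨h2, e2⟩ := (Rd.pInt_C hc).1.mul h1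
    exact ⟨h2, by rw [e2, e1, eL, (Rd.pInt_C hc).2]⟩
  set F' : (j : J) → io j → K[X] := fun j i => C (e j) * (F j i).comp (C pt + C 1 * X) with hF'
  have eF' : ∀ j i, R.pP (F' j i) =
      C ((h' j).eval p)⁻¹ * (X ^ μ j * (h' j * g j i).comp (C p + C 1 * X)) := by
    intro j i
    rw [(shift _ _ (he j) (hint j i)).2, he', hfac, ← shift_fac]
    conv_lhs => rw [hh' j]
    rw [mul_assoc]
  have topF' : ∀ j i, R.p ((F' j i).coeff (μ j)) = (g j i).eval p := by
    intro j i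
    rw [← R.coeff_pP, eF', coeff_C_mul, coeff_shift_self, eval_mul, ← mul_assoc,
      inv_mul_cancel₀ (hne j), one_mul]
  have evF' : ∀ j i y, (F' j i).eval (y - pt) = e j * (F j i).eval y := by
    intro j i y
    simp [hF', eval_comp]
  have hOH : OH R μ F' := by
    refine ⟨fun j i => (shift _ _ (he j) (hint j i)).1, fun j i l hl => ?_, fun j => ?_,
      fun y hy j => ?_⟩
    · rw [← R.p_eq_zero_iff ((shift _ _ (he j) (hint j i)).1 l), ← R.coeff_pP, eF', coeff_C_mul,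
        coeff_X_pow_mul', if_neg (by omega), mul_zero]
    · obtain ⟨i, hi⟩ := hg j p
      exact ⟨i, by rw [topF']; exact hi⟩
    · obtain ⟨i, hi⟩ := hcop (y + pt) (R.O.add_mem _ _ (R.mem_of_lt hy) hpt) j
      refine ⟨i, ?_⟩
      have := evF' j i (y + pt)
      rw [add_sub_cancel_right] at this
      rw [this]
      refine mul_ne_zero (fun h0 => ?_) hi
      have := he' j
      rw [h0, R.p_zero] at this
      exact inv_ne_zero (hne j) this.symm
  obtain ⟨B⟩ := hop F' hOH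
  have hpA : p ∉ A.T.hole A.T.root := by rw [A.rh]; exact hp
  have hok : (glue A.T p B.S).OK := by
    refine ⟨A.ok, B.ok, hpA, fun j i => ?_⟩
    rw [B.top, topF']
    simp only [Tr.ev, A.rg, hv_some]
  have hin : ∀ y, y ∈ R.O → R.p y = p → R.v (y - pt) < 1 := fun y hy hyp =>
    R.v_sub_lt hy hpt (hyp.trans hpt'.symm)
  have hout : ∀ w, R.v w < 1 → pt + w ∈ R.O ∧ R.p (pt + w) = p := fun w hw => by
    have := R.p_congr (y := pt + w) hpt (by rwa [add_sub_cancel_left])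
    exact ⟨this.1, this.2.trans hpt'⟩
  let sp : K → (glue A.T p B.S).Pt := fun y =>
    if y ∈ R.O ∧ R.p y = p then (Sum.inr (B.sp (y - pt)).1, (B.sp (y - pt)).2)
    else (Sum.inl (A.sp y).1, (A.sp y).2)
  let nrm : K → J → K := fun y j =>
    if y ∈ R.O ∧ R.p y = p then B.nrm (y - pt) j * e j else A.nrm y j
  let tr : (J → ℕ) → K[X] → K[X] := fun kk σ =>
    C (∏ j, e j ^ kk j) * σ.comp (C pt + C 1 * X)
  have hE : ∀ kk : J → ℕ, (∏ j, e j ^ kk j) ∈ R.O := fun kk =>
    prod_mem fun j _ => pow_mem (he j) _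
  have hE' : ∀ kk : J → ℕ, R.p (∏ j, e j ^ kk j) = (∏ j, (h' j).eval p ^ kk j)⁻¹ := by
    intro kk
    rw [R.p_prod _ _ fun j _ => pow_mem (he j) _, ← Finset.prod_inv_distrib]
    exact Finset.prod_congr rfl fun j _ => by rw [R.p_pow (he j), he', inv_pow]
  have hE0 : ∀ kk : J → ℕ, (∏ j, (h' j).eval p ^ kk j) ≠ 0 := fun kk =>
    Finset.prod_ne_zero_iff.2 fun j _ => pow_ne_zero _ (hne j)
  have hAdm : ∀ y, Adm R h (insert p H) y → ¬ (y ∈ R.O ∧ R.p y = p) → Adm R h H y := by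
    rintro y ⟨hy, hA⟩ hn
    refine ⟨hy, hA.imp_left fun hm => ?_⟩
    exact (Finset.mem_insert.1 hm).resolve_left fun h0 => hn ⟨hy, h0⟩
  have hsurjB : ∀ q : B.S.Pt, ∃ y, Adm R h (insert p H) y ∧
      (glue A.T p B.S).Same (Sum.inr q.1, q.2) (sp y) := by
    intro q
    obtain ⟨w, hw, hs⟩ := B.surj q
    refine ⟨pt + w, ⟨(hout w hw).1, Or.inl ?_⟩, ?_⟩
    · rw [(hout w hw).2]; exact Finset.mem_insert_self _ _
    · simp only [sp, if_pos (hout w hw), add_sub_cancel_left]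
      exact Same.inr _ _ hs
  refine ⟨{
    T := glue A.T p B.S
    ok := hok
    rd := A.rd
    rg := A.rg
    rh := ?_
    deg := ?_
    sp := sp
    nrm := nrm
    ν := fun kk σ => max (A.ν kk σ) (B.ν kk (tr kk σ))
    ev := ?_
    surj := ?_
    ν_mul := ?_
    ν_gn := fun kk σ => (A.ν_gn kk σ).trans (le_max_left _ _)
    ν_dvd := ?_
    sec := ?_
    chart := ?_
    root_sp := ?_ }⟩
  · ext x
    rw [root_glue, mem_hole_inl, A.rh]
    simp [or_comm]
  · intro j
    show A.T.deg j + B.S.deg j = _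
    rw [A.deg, B.deg, Finset.sum_insert hp]
    ring
  · intro y hy j i
    by_cases hc : y ∈ R.O ∧ R.p y = p
    · simp only [sp, nrm, if_pos hc]
      have := B.ev _ (hin y hc.1 hc.2) j i
      rw [evF', ← mul_assoc] at this
      exact this
    · simp only [sp, nrm, if_neg hc]
      exact A.ev y (hAdm y hy hc) j i
  · rintro ⟨a | a, x⟩
    · rcases A.surj (a, x) with h1 | ⟨z, h1, hz, hz'⟩ | ⟨y, hy, hs⟩
      · left; obtain ⟨rfl, rfl⟩ := Prod.mk.inj h1; rfl
      · obtain ⟨rfl, rfl⟩ := Prod.mk.inj h1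
        by_cases hzp : z = p
        · subst hzp
          obtain ⟨y, hy, hs⟩ := hsurjB (B.S.root, none)
          exact Or.inr (Or.inr ⟨y, hy, (same_node hok).trans hs⟩)
        · exact Or.inr (Or.inl ⟨z, rfl, by simp [hzp, hz], hz'⟩)
      · by_cases hc : y ∈ R.O ∧ R.p y = p
        · have h1 := A.root_sp y hc.1 (hc.2 ▸ hp)
          rw [h1, hc.2] at hs
          obtain ⟨y', hy', hs'⟩ := hsurjB (B.S.root, none)
          exact Or.inr (Or.inr ⟨y', hy', (Same.inl p B.S hs).trans ((same_node hok).trans hs')⟩)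
        · refine Or.inr (Or.inr ⟨y, ⟨hy.1, hy.2.imp_left Finset.mem_insert_of_mem⟩, ?_⟩)
          simp only [sp, if_neg hc]
          exact Same.inl p B.S hs
    · exact Or.inr (Or.inr (hsurjB (a, x)))
  · intro kk c σ
    have : tr kk (C c * σ) = C c * tr kk σ := by
      simp only [tr, mul_comp, C_comp]; ring
    rw [this, A.ν_mul, B.ν_mul, mul_max]
  · intro kk σ hν q hq
    have hν1 := (le_max_left _ _).trans hν
    have hν2 := (le_max_right _ _).trans hν
    rcases Finset.mem_insert.1 hq with rfl | hq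
    · have hσ := R.gn_le_one_iff.1 ((A.ν_gn kk σ).trans hν1)
      obtain ⟨h1, e1⟩ := shift _ _ (hE kk) hσ
      refine dvd_of_shift (c := R.p (∏ j, e j ^ kk j)) (by rw [hE']; exact inv_ne_zero (hE0 kk)) ?_
      rw [← e1, X_pow_dvd_iff]
      intro l hl
      rw [R.coeff_pP]
      exact R.p_eq_zero_of_lt (B.ν_low kk _ hν2 h1 l hl)
    · exact A.ν_dvd kk σ hν1 q hq
  · intro kk σ hν s0 hs0 hdeg
    have hν1 := (le_max_left _ _).trans hν
    have hν2 := (le_max_right _ _).trans hν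
    have hσ := R.gn_le_one_iff.1 ((A.ν_gn kk σ).trans hν1)
    obtain ⟨h1, e1⟩ := shift _ _ (hE kk) hσ
    obtain ⟨s1, hs1, hr1, hv1, hz1⟩ := A.sec kk σ hν1 s0 hs0 hdeg
    obtain ⟨s2, hs2, hr2, hv2, hz2⟩ := B.sec kk (tr kk σ) hν2 h1
    refine ⟨Sum.elim s1 s2, ⟨hs1, hs2, ?_⟩, hr1, fun y hy => ?_, fun h0 => ?_⟩
    · show val kk B.S s2 _ = val kk A.T s1 _
      rw [hr2, ← R.coeff_pP, e1, hs0]
      have : (∏ j, h j ^ kk j) = (X - C p) ^ dot kk μ * ∏ j, h' j ^ kk j := by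
        rw [dot, ← Finset.prod_pow_eq_pow_sum, ← Finset.prod_mul_distrib]
        refine Finset.prod_congr rfl fun j _ => ?_
        conv_lhs => rw [hh' j]
        rw [mul_pow, ← pow_mul, mul_comm (kk j)]
      rw [this, mul_assoc, shift_fac, coeff_C_mul, coeff_shift_self, eval_mul, eval_prod, hE']
      simp only [eval_pow]
      rw [← mul_assoc, inv_mul_cancel₀ (hE0 kk), one_mul]
      simp only [val, hr1, hv_some]
    · by_cases hc : y ∈ R.O ∧ R.p y = p
      · have := hv2 _ (hin y hc.1 hc.2)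
        have e2 : lam B.nrm kk (tr kk σ) (y - pt) = lam nrm kk σ y := by
          simp only [lam, nrm, tr, if_pos hc, mul_pow, Finset.prod_mul_distrib, eval_mul, eval_C,
            eval_comp, eval_add, eval_X, one_mul, add_sub_cancel, mul_assoc]
        rw [e2] at this
        simp only [sp, if_pos hc]
        exact this
      · have := hv1 y (hAdm y hy hc)
        have e2 : lam A.nrm kk σ y = lam nrm kk σ y := by
          simp only [lam, nrm, if_neg hc]
        rw [e2] at this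
        simp only [sp, if_neg hc]
        exact this
    · exact max_lt (hz1 (funext fun a => congrFun h0 (Sum.inl a)))
        (hz2 (funext fun a => congrFun h0 (Sum.inr a)))
  · rintro (a | a)
    · by_cases ha : a = A.T.root
      · left; rw [ha]; rfl
      · right
        refine Chart.transport (T' := A.T) (a' := a) (F' := F) (x0 := 0) (ρ0 := 1) (e := fun _ => 1)
          (fun j i => by simp) one_ne_zero rfl ?_ ?_ ((A.chart a).resolve_left ha)
        · ext x; rw [mem_hole_inl]; simp [ha]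
        · rintro w ⟨hw, hw'⟩ z hz
          have hc : ¬ (w ∈ R.O ∧ R.p w = p) := fun hc => hp (hc.2 ▸ hw')
          rw [zero_add, one_mul]
          refine ⟨⟨hw, Finset.mem_insert_of_mem hw'⟩, ?_⟩
          simp only [sp, if_neg hc, hz]
    · right
      refine Chart.transport (T' := B.S) (a' := a) (F' := F') (x0 := pt) (ρ0 := 1) (e := e)
        (fun j i => rfl) one_ne_zero rfl rfl ?_ (B.chart a)
      intro w hw z hz
      rw [one_mul]
      refine ⟨⟨(hout w hw).1, by rw [(hout w hw).2]; exact Finset.mem_insert_self _ _⟩, ?_⟩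
      simp only [sp, if_pos (hout w hw), add_sub_cancel_left, hz]
  · intro u hu hu'
    rw [Finset.mem_insert, not_or] at hu'
    have hc : ¬ (u ∈ R.O ∧ R.p u = p) := fun hc => hu'.1 hc.2
    simp only [sp, if_neg hc, A.root_sp u hu hu'.2]
    rfl

end Crest.Agent.X262.Bub96
end

-- ▼ part X262/Bub96/ExB
section

/-! # The reduction tree: bubbling and existence -/

set_option autoImplicit false

namespace Crest.Agent.X262.Bub96

open Polynomial Tr

variable {K : Type*} [Field K] {k : Type*} [Field k] {R : Rd K k} {J : Type*} [Fintype J]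
  {io : J → Type*}

/-- closed discs from open discs with smaller hole multiplicities. -/
theorem cs_of_op [IsAlgClosed k] [∀ j, Finite (io j)] {m : J → ℕ}
    {F : (j : J) → io j → K[X]} (hF : CH R m F) {M : ℕ}
    (hM : ∀ (p : k) (μ : J → ℕ), (∀ j i, (X - C p) ^ μ j ∣ R.pP (F j i)) → ∑ j, μ j < M)
    (hop : ∀ (μ : J → ℕ) (F' : (j : J) → io j → K[X]), 0 < ∑ j, μ j → ∑ j, μ j < M →
      OH R μ F' → Nonempty (Op R μ F')) : Nonempty (Cs R m F) := by
  classical
  have := fun j => Fintype.ofFinite (io j)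
  let h : J → k[X] := fun j => Finset.univ.gcd fun i => R.pP (F j i)
  have hdvd : ∀ j i, h j ∣ R.pP (F j i) := fun j i => Finset.gcd_dvd (Finset.mem_univ i)
  choose i0 hi0 using hF.top
  have hne : ∀ j, R.pP (F j (i0 j)) ≠ 0 := fun j h0 => hi0 j (by
    rw [← R.coeff_pP, h0, coeff_zero])
  have hh : ∀ j, h j ≠ 0 := fun j h0 => hne j (eq_zero_of_zero_dvd (h0 ▸ hdvd j (i0 j)))
  have hmon : ∀ j, (h j).Monic := fun j => by
    have : normalize (h j) = h j := Finset.normalize_gcd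
    rw [← this]; exact monic_normalize (hh j)
  choose g hg using hdvd
  have hle : ∀ j, (h j).natDegree ≤ m j := fun j =>
    (natDegree_le_of_dvd ⟨_, hg j (i0 j)⟩ (hne j)).trans (hF.deg j (i0 j))
  let d0 : J → ℕ := fun j => m j - (h j).natDegree
  have hd0 : ∀ j, (h j).natDegree + d0 j = m j := fun j => Nat.add_sub_cancel' (hle j)
  have hgd : ∀ j i, (g j i).natDegree ≤ d0 j := fun j i => by
    by_cases h0 : g j i = 0
    · rw [h0, natDegree_zero]; exact Nat.zero_le _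
    · have := hF.deg j i
      rw [hg, natDegree_mul (hh j) h0] at this
      have := hd0 j
      omega
  have htop : ∀ j i, (g j i).coeff (d0 j) = R.p ((F j i).coeff (m j)) := fun j i => by
    rw [← R.coeff_pP, hg, ← hd0 j, coeff_mul_add_eq_of_natDegree_le le_rfl (hgd j i),
      (hmon j).coeff_natDegree, one_mul]
  have hgz : ∀ j z, ∃ i, (g j i).eval z ≠ 0 := by
    intro j z
    by_contra hc
    push Not at hc
    have : h j * (X - C z) ∣ h j := by
      refine Finset.dvd_gcd fun i _ => ?_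
      rw [hg]
      exact mul_dvd_mul_left _ (dvd_iff_isRoot.2 (hc i))
    have := natDegree_le_of_dvd this (hh j)
    rw [natDegree_mul (hh j) (X_sub_C_ne_zero z), natDegree_X_sub_C] at this
    omega
  have hok : (leaf d0 g : Tr k J io).OK := by
    refine ⟨hgd, fun j x => ?_⟩
    cases x with
    | none => exact ⟨i0 j, by rw [hv_none, htop]; exact hi0 j⟩
    | some z => exact hgz j z
  let Hs : Finset k := (∏ j, h j).roots.toFinset
  have hP : (∏ j, h j) ≠ 0 := Finset.prod_ne_zero_iff.2 fun j _ => hh j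
  have hHs : ∀ z, z ∈ Hs ↔ ∃ j, (h j).IsRoot z := fun z => by
    simp only [Hs, Multiset.mem_toFinset, mem_roots hP, IsRoot.def, eval_prod,
      Finset.prod_eq_zero_iff, Finset.mem_univ, true_and]
  have key : ∀ H : Finset k, H ⊆ Hs → Nonempty (ClH R F h d0 g H) := by
    intro H
    induction H using Finset.induction_on with
    | empty => exact fun _ => clH_empty hF.int hg hok
    | insert p H hp ih =>
      intro hsub
      obtain ⟨A⟩ := ih fun x hx => hsub (Finset.mem_insert_of_mem hx)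
      refine clH_insert hF.int hg hh hgz hF.cop hp (fun F' hF' => hop _ F' ?_ ?_ hF') A
      · obtain ⟨j, hj⟩ := (hHs p).1 (hsub (Finset.mem_insert_self _ _))
        exact lt_of_lt_of_le ((rootMultiplicity_pos (hh j)).2 hj)
          (Finset.single_le_sum (f := fun j => rootMultiplicity p (h j))
            (fun _ _ => Nat.zero_le _) (Finset.mem_univ j))
      · exact hM p _ fun j i => (pow_rootMultiplicity_dvd (h j) p).trans ⟨_, hg j i⟩
  obtain ⟨A⟩ := key Hs subset_rfl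
  have hAdm : ∀ y ∈ R.O, Adm R h Hs y := fun y hy => ⟨hy, by
    by_cases hc : R.p y ∈ Hs
    · exact Or.inl hc
    · exact Or.inr fun j hj => hc ((hHs _).2 ⟨j, hj⟩)⟩
  have hfac : ∀ j, h j = ∏ p ∈ Hs, (X - C p) ^ rootMultiplicity p (h j) := by
    intro j
    have h1 := (IsAlgClosed.splits (h j)).eq_prod_roots_of_monic (hmon j)
    rw [prod_multiset_root_eq_finset_root] at h1
    refine h1.trans (Finset.prod_subset ?_ ?_)
    · intro z hz
      rw [Multiset.mem_toFinset, mem_roots (hh j)] at hz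
      exact (hHs z).2 ⟨j, hz⟩
    · intro z _ hz
      rw [Multiset.mem_toFinset, mem_roots (hh j)] at hz
      rw [rootMultiplicity_eq_zero hz, pow_zero]
  have hdeg : ∀ j, ∑ p ∈ Hs, rootMultiplicity p (h j) = (h j).natDegree := by
    intro j
    conv_rhs => rw [hfac j]
    rw [natDegree_prod_of_monic _ _ fun p _ => (monic_X_sub_C p).pow _]
    simp
  refine ⟨{
    T := A.T
    ok := A.ok
    deg := funext fun j => by rw [A.deg, hdeg, add_comm, hd0]
    top := fun j i => by simp only [Tr.ev, A.rg, A.rd, hv_none, htop]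
    sp := A.sp
    nrm := A.nrm
    ν := A.ν
    ev := fun y hy => A.ev y (hAdm y hy)
    surj := fun pt => ?_
    ν_mul := A.ν_mul
    ν_gn := A.ν_gn
    sec := ?_
    chart := fun a => ?_ }⟩
  · rcases A.surj pt with h1 | ⟨z, -, hz, hz'⟩ | ⟨y, hy, hs⟩
    · exact Or.inl h1
    · exact absurd ((hHs z).2 hz') hz
    · exact Or.inr ⟨y, hy.1, hs⟩
  · intro kk σ hν hσd
    have hPm : (∏ j, h j ^ kk j).Monic := monic_prod_of_monic _ _ fun j _ => (hmon j).pow _
    have hPd : (∏ j, h j ^ kk j).natDegree + dot kk d0 = dot kk m := by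
      rw [natDegree_prod_of_monic _ _ fun j _ => (hmon j).pow _, dot, dot,
        ← Finset.sum_add_distrib]
      refine Finset.sum_congr rfl fun j _ => ?_
      rw [(hmon j).natDegree_pow, ← mul_add, hd0]
    have hdv : (∏ j, h j ^ kk j) ∣ R.pP σ := by
      have e : (∏ j, h j ^ kk j) =
          ∏ p ∈ Hs, (X - C p) ^ dot kk (fun j => rootMultiplicity p (h j)) := by
        simp only [dot, ← Finset.prod_pow_eq_pow_sum]
        rw [Finset.prod_comm]
        refine Finset.prod_congr rfl fun j _ => ?_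
        conv_lhs => rw [hfac j]
        rw [← Finset.prod_pow]
        exact Finset.prod_congr rfl fun p _ => by rw [← pow_mul, mul_comm]
      rw [e]
      refine Finset.prod_dvd_of_coprime (fun p _ q _ hpq => ?_) (A.ν_dvd kk σ hν)
      exact (pairwise_coprime_X_sub_C Function.injective_id hpq).pow
    obtain ⟨s0, hs0⟩ := hdv
    have hs0d : s0.natDegree ≤ dot kk d0 := by
      by_cases h0 : s0 = 0
      · rw [h0, natDegree_zero]; exact Nat.zero_le _
      · rw [hs0, natDegree_mul hPm.ne_zero h0] at hσd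
        omega
    obtain ⟨s, hs, hr, hv, hz⟩ := A.sec kk σ hν s0 hs0 hs0d
    refine ⟨s, hs, ?_, fun y hy => hv y (hAdm y hy), hz⟩
    rw [← R.coeff_pP, hs0, ← hPd, coeff_mul_add_eq_of_natDegree_le le_rfl hs0d,
      hPm.coeff_natDegree, one_mul]
    simp only [val, hr, A.rd, hv_none]
  · rcases A.chart a with rfl | hc
    · refine ⟨0, 1, fun _ => 1, h, one_ne_zero, hh, fun j i => ?_, fun z => ?_,
        fun u hu hu' => ?_⟩
      · rw [A.rg, ← hg]
        simpa using hF.int j i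
      · rw [A.rh]; exact hHs z
      · rw [zero_add, one_mul]
        rw [A.rh] at hu'
        exact ⟨hu, A.root_sp u hu hu'⟩
    · exact Chart.transport (F' := F) (x0 := 0) (ρ0 := 1) (e := fun _ => 1)
        (fun j i => by simp) one_ne_zero rfl rfl
        (fun w hw z hz => by rw [zero_add, one_mul]; exact ⟨hw.1, hz⟩) hc

theorem coeff_aff (P : K[X]) (c a ρ : K) (l : ℕ) :
    (C c * P.comp (C a + C ρ * X)).coeff l = c * ((P.comp (C a + C 1 * X)).coeff l * ρ ^ l) := by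
  have := comp_aff_aff P a 1 0 ρ
  rw [mul_zero, add_zero, one_mul, C_0, zero_add] at this
  rw [coeff_C_mul, ← this, comp_C_mul_X_coeff]

theorem eval_aff (P : K[X]) (c a ρ w : K) :
    (C c * P.comp (C a + C ρ * X)).eval w = c * P.eval (a + ρ * w) := by
  simp [eval_comp]

theorem v_scale_low {ρ x : K} (hρ : ρ ≠ 0) {l M : ℕ} (hl : l ≤ M) :
    (ρ ^ M)⁻¹ * (x * ρ ^ l) = x * (ρ ^ (M - l))⁻¹ := by
  obtain ⟨t, rfl⟩ := Nat.exists_eq_add_of_le hl
  rw [Nat.add_sub_cancel_left]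
  field_simp
  ring

theorem v_scale_high {ρ x : K} (hρ : ρ ≠ 0) {l M : ℕ} (hl : M ≤ l) :
    (ρ ^ M)⁻¹ * (x * ρ ^ l) = x * ρ ^ (l - M) := by
  obtain ⟨t, rfl⟩ := Nat.exists_eq_add_of_le hl
  rw [Nat.add_sub_cancel_left]
  field_simp
  ring

/-- value outside the disc `D(a,ρ)`. -/
theorem outer {P : K[X]} {a ρ y : K} (hρ : ρ ≠ 0) {M : ℕ}
    (hI : PInt R.O (C (ρ ^ M)⁻¹ * P.comp (C a + C ρ * X))) (hy : ρ⁻¹ * (y - a) ∉ R.O)
    (hhi : ∀ l, M < l → R.v ((P.comp (C a + C 1 * X)).coeff l) * R.v (y - a) ^ (l - M) < 1) :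
    ((y - a) ^ M)⁻¹ * P.eval y ∈ R.O ∧
      R.p (((y - a) ^ M)⁻¹ * P.eval y) = R.p ((C (ρ ^ M)⁻¹ * P.comp (C a + C ρ * X)).coeff M) := by
  have hw : 1 < R.v (ρ⁻¹ * (y - a)) := not_le.1 fun h => hy (R.mem_iff.2 h)
  have := Rd.annulus (Q := C (ρ ^ M)⁻¹ * P.comp (C a + C ρ * X)) (M := M) hw (fun l _ => hI l)
    (fun l hl => by
      rw [coeff_aff, v_scale_high hρ hl.le, map_mul, mul_assoc, map_pow, ← mul_pow, ← map_mul,
        ← mul_assoc ρ, mul_inv_cancel₀ hρ, one_mul]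
      exact hhi l hl)
  rw [eval_aff, ← mul_assoc ρ, mul_inv_cancel₀ hρ, one_mul, add_sub_cancel, ← mul_assoc,
    ← mul_inv, ← mul_pow, mul_right_comm, inv_mul_cancel₀ hρ, one_mul] at this
  exact this

theorem prod_pow_inv (x : K) (kk m : J → ℕ) :
    (∏ j, ((x ^ m j)⁻¹) ^ kk j) = (x ^ dot kk m)⁻¹ := by
  rw [dot, ← Finset.prod_pow_eq_pow_sum, ← Finset.prod_inv_distrib]
  exact Finset.prod_congr rfl fun j _ => by rw [inv_pow, ← pow_mul, mul_comm]

/-- choice of the radius. -/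
theorem exists_radius [IsAlgClosed K] [∀ j, Finite (io j)] (R : Rd K k) (m : J → ℕ)
    (c : (j : J) → io j → ℕ → K) (j0 : J) (i0 : io j0) (hm : 0 < m j0) :
    ∃ ρ : K, (∀ j i l, l < m j → R.v (c j i l) ≤ R.v ρ ^ (m j - l)) ∧
      ∃ j i l, l < m j ∧ c j i l = ρ ^ (m j - l) := by
  have hr : ∀ t : (Σ j, io j × Fin (m j)), ∃ r : K, r ^ (m t.1 - t.2.2) = c t.1 t.2.1 t.2.2 :=
    fun t => IsAlgClosed.exists_pow_nat_eq _ (by have := t.2.2.2; omega)
  choose r hr using hr
  have : Nonempty (Σ j, io j × Fin (m j)) := ⟨⟨j0, i0, ⟨0, hm⟩⟩⟩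
  obtain ⟨t0, ht0⟩ := Finite.exists_max fun t => R.v (r t)
  refine ⟨r t0, fun j i l hl => ?_, t0.1, t0.2.1, t0.2.2, t0.2.2.2, (hr t0).symm⟩
  have := hr ⟨j, i, ⟨l, hl⟩⟩
  simp only at this
  rw [← this, map_pow]
  exact pow_le_pow_left₀ zero_le (ht0 _) _

/-- the bubble step: open discs from closed discs. -/
theorem op_of_cs [IsAlgClosed K] [∀ j, Finite (io j)] {m : J → ℕ}
    {F : (j : J) → io j → K[X]} (hF : OH R m F) (hm : 0 < ∑ j, m j)
    (hcs : ∀ F' : (j : J) → io j → K[X], CH R m F' →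
      (∀ (p : k) (μ : J → ℕ), (∀ j i, (X - C p) ^ μ j ∣ R.pP (F' j i)) → ∑ j, μ j < ∑ j, m j) →
      Nonempty (Cs R m F')) : Nonempty (Op R m F) := by
  classical
  obtain ⟨j0, -, hj0⟩ := Finset.exists_ne_zero_of_sum_ne_zero hm.ne'
  have hj0 : 0 < m j0 := Nat.pos_of_ne_zero hj0
  choose i1 hi1 using hF.top
  obtain ⟨a, haO, ha0, hra⟩ := Rd.exists_root (hF.int j0 (i1 j0)) (z := 0)
    (fun h0 => hi1 j0 (by rw [← R.coeff_pP, h0, coeff_zero]))
    (by rw [IsRoot, ← coeff_zero_eq_eval_zero, R.coeff_pP]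
        exact R.p_eq_zero_of_lt (hF.low _ _ _ hj0))
  have ha : R.v a < 1 := (R.p_eq_zero_iff haO).1 ha0
  obtain ⟨hL, eL⟩ := Rd.pInt_aff (R := R) haO R.O.one_mem
  rw [ha0, R.p_one] at eL
  have tay : ∀ σ : K[X], PInt R.O σ → PInt R.O (σ.comp (C a + C 1 * X)) ∧
      ∀ l, R.p ((σ.comp (C a + C 1 * X)).coeff l) = R.p (σ.coeff l) := by
    intro σ hσ
    obtain ⟨h1, e1⟩ := hσ.comp hL
    refine ⟨h1, fun l => ?_⟩
    rw [← R.coeff_pP, e1, eL, ← R.coeff_pP]
    simp
  obtain ⟨ρ, hρle, j2, i2, l2, hl2, hρeq⟩ := exists_radius R m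
    (fun j i l => ((F j i).comp (C a + C 1 * X)).coeff l) j0 (i1 j0) hj0
  have hlow : ∀ j i l, l < m j → R.v (((F j i).comp (C a + C 1 * X)).coeff l) < 1 := by
    intro j i l hl
    rw [← R.p_eq_zero_iff ((tay _ (hF.int j i)).1 l), (tay _ (hF.int j i)).2]
    exact R.p_eq_zero_of_lt (hF.low j i l hl)
  have hρ1 : R.v ρ < 1 := by
    have := hlow j2 i2 l2 hl2
    rw [hρeq, map_pow] at this
    by_contra hc
    exact absurd this (not_lt.2 (one_le_pow₀ (not_lt.1 hc)))
  have hρ : ρ ≠ 0 := by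
    rintro rfl
    obtain ⟨i, hi⟩ := hF.cop a ha j0
    have := hρle j0 i 0 hj0
    rw [map_zero, zero_pow (by omega), le_zero_iff, map_eq_zero, coeff_zero_eq_eval_zero,
      eval_comp] at this
    exact hi (by simpa using this)
  have hvρ : R.v ρ ≠ 0 := by simpa using hρ
  set F' : (j : J) → io j → K[X] := fun j i =>
    C (ρ ^ m j)⁻¹ * (F j i).comp (C a + C ρ * X) with hF'
  have hhigh : ∀ (σ : K[X]) (M l : ℕ) (t : K), PInt R.O σ → R.v t < 1 → M < l →
      R.v ((σ.comp (C a + C 1 * X)).coeff l) * R.v t ^ (l - M) < 1 := by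
    intro σ M l t hσ ht hl
    calc _ ≤ 1 * R.v t ^ (l - M) := mul_le_mul_left (R.mem_iff.1 ((tay σ hσ).1 l)) _
      _ < 1 := by rw [one_mul]; exact pow_lt_one₀ zero_le ht (by omega)
  have hhigh' : ∀ (σ : K[X]) (M l : ℕ), PInt R.O σ → M < l →
      R.v ((C (ρ ^ M)⁻¹ * σ.comp (C a + C ρ * X)).coeff l) < 1 := by
    intro σ M l hσ hl
    rw [coeff_aff, v_scale_high hρ hl.le, map_mul, map_pow]
    exact hhigh σ M l ρ hσ hρ1 hl
  have hdeg' : ∀ (σ : K[X]) (M : ℕ), PInt R.O σ →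
      (R.pP (C (ρ ^ M)⁻¹ * σ.comp (C a + C ρ * X))).natDegree ≤ M := fun σ M hσ =>
    natDegree_le_iff_coeff_eq_zero.2 fun l hl => by
      rw [R.coeff_pP]; exact R.p_eq_zero_of_lt (hhigh' σ M l hσ hl)
  have htop' : ∀ (σ : K[X]) (M : ℕ), PInt R.O σ →
      R.p ((C (ρ ^ M)⁻¹ * σ.comp (C a + C ρ * X)).coeff M) = R.p (σ.coeff M) := by
    intro σ M hσ
    rw [coeff_aff, v_scale_high hρ le_rfl, Nat.sub_self, pow_zero, mul_one, (tay σ hσ).2]
  have hint' : ∀ j i, PInt R.O (F' j i) := by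
    intro j i l
    rcases lt_trichotomy l (m j) with hl | hl | hl
    · rw [R.mem_iff, coeff_aff, v_scale_low hρ hl.le, map_mul, map_inv₀, map_pow]
      exact mul_inv_le_one_of_le₀ (hρle j i l hl) zero_le
    · rw [hl, coeff_aff, v_scale_high hρ le_rfl, Nat.sub_self, pow_zero, mul_one]
      exact (tay _ (hF.int j i)).1 _
    · exact R.mem_of_lt (hhigh' _ _ _ (hF.int j i) hl)
  have hsmall : ∀ w ∈ R.O, R.v (a + ρ * w) < 1 := fun w hw =>
    Valuation.map_add_lt _ ha (by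
      rw [map_mul]
      exact lt_of_le_of_lt (mul_le_of_le_one_right' (R.mem_iff.1 hw)) hρ1)
  have hCH : CH R m F' := by
    refine ⟨hint', fun j i => hdeg' _ _ (hF.int j i),
      fun j => ⟨i1 j, by rw [htop' _ _ (hF.int j _)]; exact hi1 j⟩, fun y hy j => ?_⟩
    obtain ⟨i, hi⟩ := hF.cop _ (hsmall y hy) j
    exact ⟨i, by rw [eval_aff]; exact mul_ne_zero (inv_ne_zero (pow_ne_zero _ hρ)) hi⟩
  have hhole : ∀ (p : k) (μ : J → ℕ), (∀ j i, (X - C p) ^ μ j ∣ R.pP (F' j i)) →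
      ∑ j, μ j < ∑ j, m j := by
    intro p μ hμ
    have hne : ∀ j, R.pP (F' j (i1 j)) ≠ 0 := fun j h0 => hi1 j (by
      rw [← htop' _ _ (hF.int j _), ← R.coeff_pP, show R.pP _ = 0 from h0, coeff_zero])
    have hle : ∀ j, μ j ≤ m j := fun j => by
      have := natDegree_le_of_dvd (hμ j (i1 j)) (hne j)
      rw [(monic_X_sub_C p).natDegree_pow, natDegree_X_sub_C, mul_one] at this
      exact this.trans (hCH.deg j _)
    refine Finset.sum_lt_sum (fun j _ => hle j) ?_
    by_contra hc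
    push Not at hc
    have heq : ∀ j, μ j = m j := fun j => le_antisymm (hle j) (hc j (Finset.mem_univ j))
    have hform : ∀ j i, ∃ c, R.pP (F' j i) = (X - C p) ^ m j * C c := by
      intro j i
      obtain ⟨q, hq⟩ := hμ j i
      rw [heq] at hq
      refine ⟨q.coeff 0, ?_⟩
      rw [← eq_C_of_natDegree_le_zero, hq]
      by_cases h0 : q = 0
      · rw [h0, natDegree_zero]
      · have := hCH.deg j i
        rw [hq, natDegree_mul (pow_ne_zero _ (X_sub_C_ne_zero p)) h0,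
          (monic_X_sub_C p).natDegree_pow, natDegree_X_sub_C] at this
        omega
    have hp0 : p = 0 := by
      obtain ⟨c, hc⟩ := hform j0 (i1 j0)
      have h1 := ((hint' j0 (i1 j0)).eval R.O.zero_mem).2
      rw [eval_aff, mul_zero, add_zero, hra, mul_zero, R.p_zero, hc] at h1
      simp only [eval_mul, eval_pow, eval_sub, eval_X, eval_C, zero_sub] at h1
      rcases mul_eq_zero.1 h1.symm with h2 | h2
      · exact neg_eq_zero.1 (pow_eq_zero_iff hj0.ne' |>.1 h2)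
      · exact absurd (by rw [hc, h2, C_0, mul_zero]) (hne j0)
    obtain ⟨c, hc⟩ := hform j2 i2
    have h1 := R.coeff_pP (F' j2 i2) l2
    rw [hc, hp0, C_0, sub_zero, coeff_X_pow_mul', if_neg (by omega), coeff_aff,
      v_scale_low hρ hl2.le, hρeq, mul_inv_cancel₀ (pow_ne_zero _ hρ), R.p_one] at h1
    exact zero_ne_one h1
  obtain ⟨A⟩ := hcs F' hCH hhole
  have hya : ∀ y, R.v y < 1 → R.v (y - a) < 1 := fun y hy => Valuation.map_sub_lt _ hy ha
  let sp : K → A.T.Pt := fun y =>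
    if ρ⁻¹ * (y - a) ∈ R.O then A.sp (ρ⁻¹ * (y - a)) else (A.T.root, none)
  let nrm : K → J → K := fun y j =>
    if ρ⁻¹ * (y - a) ∈ R.O then A.nrm (ρ⁻¹ * (y - a)) j * (ρ ^ m j)⁻¹ else ((y - a) ^ m j)⁻¹
  have hback : ∀ y, a + ρ * (ρ⁻¹ * (y - a)) = y := fun y => by field_simp; ring
  have hfwd : ∀ w, ρ⁻¹ * (a + ρ * w - a) = w := fun w => by field_simp; ring
  refine ⟨{
    S := A.T
    ok := A.ok
    deg := A.deg
    top := fun j i => by rw [A.top, htop' _ _ (hF.int j i)]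
    sp := sp
    nrm := nrm
    ν := fun kk σ => A.ν kk (C (ρ ^ dot kk m)⁻¹ * σ.comp (C a + C ρ * X))
    ev := ?_
    surj := ?_
    ν_mul := ?_
    ν_low := ?_
    sec := ?_
    chart := ?_ }⟩
  · intro y hy j i
    by_cases hc : ρ⁻¹ * (y - a) ∈ R.O
    · have := A.ev _ hc j i
      rw [eval_aff, hback, ← mul_assoc] at this
      simpa only [sp, nrm, if_pos hc] using this
    · have := outer hρ (hint' j i) hc fun l hl => hhigh _ _ _ _ (hF.int j i) (hya y hy) hl
      rw [← A.top] at this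
      simpa only [sp, nrm, if_neg hc] using this
  · intro pt
    rcases A.surj pt with rfl | ⟨w, hw, hs⟩
    · obtain ⟨s, hs⟩ := IsAlgClosed.exists_pow_nat_eq ρ (n := 2) two_pos
      have hs1 : R.v s < 1 := by
        by_contra hc
        rw [← hs, map_pow] at hρ1
        exact absurd hρ1 (not_lt.2 (one_le_pow₀ (not_lt.1 hc)))
      have hs0 : s ≠ 0 := by rintro rfl; exact hρ (by rw [← hs]; simp)
      have hc : ¬ ρ⁻¹ * (a + s - a) ∈ R.O := by
        rw [add_sub_cancel_left, ← hs, show (s ^ 2)⁻¹ * s = s⁻¹ by field_simp, R.mem_iff,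
          map_inv₀, not_le]
        exact (one_lt_inv₀ (by simpa [zero_lt_iff] using hs0)).2 hs1
      refine ⟨a + s, Valuation.map_add_lt _ ha hs1, ?_⟩
      simp only [sp, if_neg hc]
      exact Same.refl _ _
    · refine ⟨a + ρ * w, hsmall w hw, ?_⟩
      simp only [sp, hfwd, if_pos hw]
      exact hs
  · intro kk c σ
    rw [← A.ν_mul]
    congr 1
    simp only [mul_comp, C_comp]; ring
  · intro kk σ hν hσ l hl
    have hI := R.mem_iff.1 (R.gn_le_one_iff.1 ((A.ν_gn kk _).trans hν) l)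
    rw [coeff_aff, v_scale_low hρ hl.le, map_mul, map_inv₀, map_pow,
      mul_inv_le_iff₀ (pow_pos (zero_lt_iff.2 hvρ) _), one_mul] at hI
    rw [← R.p_eq_zero_iff (hσ l), ← (tay σ hσ).2]
    exact R.p_eq_zero_of_lt (hI.trans_lt (pow_lt_one₀ zero_le hρ1 (by omega)))
  · intro kk σ hν hσ
    have hI := R.gn_le_one_iff.1 ((A.ν_gn kk _).trans hν)
    obtain ⟨s, hs, hr, hv, hz⟩ := A.sec kk _ hν (hdeg' σ _ hσ)
    refine ⟨s, hs, by rw [hr, htop' _ _ hσ], fun y hy => ?_, hz⟩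
    by_cases hc : ρ⁻¹ * (y - a) ∈ R.O
    · have := hv _ hc
      have e : lam A.nrm kk (C (ρ ^ dot kk m)⁻¹ * σ.comp (C a + C ρ * X)) (ρ⁻¹ * (y - a)) =
          lam nrm kk σ y := by
        simp only [lam, nrm, if_pos hc, eval_aff, hback, mul_pow, Finset.prod_mul_distrib,
          prod_pow_inv, mul_assoc]
      rw [e] at this
      simpa only [sp, if_pos hc] using this
    · have := outer hρ hI hc fun l hl => hhigh _ _ _ _ hσ (hya y hy) hl
      rw [← hr] at this
      simpa only [sp, lam, nrm, if_neg hc, prod_pow_inv] using this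
  · intro b
    refine Chart.transport (F' := F') (x0 := a) (ρ0 := ρ) (e := fun j => (ρ ^ m j)⁻¹)
      (fun j i => rfl) hρ rfl rfl (fun w hw z hz => ⟨hsmall w hw, ?_⟩) (A.chart b)
    have hw' : w ∈ R.O := hw
    simp only [sp, hfwd, if_pos hw', hz]

theorem op_all [IsAlgClosed K] [IsAlgClosed k] [∀ j, Finite (io j)] (n : ℕ) :
    ∀ (m : J → ℕ) (F : (j : J) → io j → K[X]), ∑ j, m j = n → 0 < n → OH R m F →
      Nonempty (Op R m F) := by
  induction n using Nat.strong_induction_on with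
  | _ n ih =>
  intro m F hn h0 hF
  refine op_of_cs hF (hn ▸ h0) fun F' hF' hh => cs_of_op hF' hh fun μ F'' h1 h2 h3 => ?_
  exact ih _ (hn ▸ h2) μ F'' rfl h1 h3

theorem cs_all [IsAlgClosed K] [IsAlgClosed k] [∀ j, Finite (io j)] {m : J → ℕ}
    {F : (j : J) → io j → K[X]} (hF : CH R m F) : Nonempty (Cs R m F) := by
  refine cs_of_op hF (M := ∑ j, m j + 1) (fun p μ hμ => ?_)
    fun μ F' h1 _ h3 => op_all _ μ F' rfl h1 h3
  refine Nat.lt_succ_of_le (Finset.sum_le_sum fun j _ => ?_)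
  obtain ⟨i, hi⟩ := hF.top j
  have := natDegree_le_of_dvd (hμ j i) fun h0 => hi (by rw [← R.coeff_pP, h0, coeff_zero])
  rw [(monic_X_sub_C p).natDegree_pow, natDegree_X_sub_C, mul_one] at this
  exact this.trans (hF.deg j _)

/-- **Existence of the reduction tree**, with the exact description of the holes. -/
theorem exists_red' [IsAlgClosed K] [IsAlgClosed k] [∀ j, Finite (io j)] (R : Rd K k)
    {d : J → ℕ} {F : (j : J) → io j → K[X]} (hF : Cop d F) :
    ∃ A : Red R d F, ∀ a, Chart R F A.T (fun y => A.sp (some y)) Set.univ a := by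
  classical
  -- normalise the values at infinity
  have hc : ∀ j, ∃ c : K, (∀ i, c * (F j i).coeff (d j) ∈ R.O) ∧
      ∃ i, c * (F j i).coeff (d j) = 1 := by
    intro j
    obtain ⟨i1, hi1⟩ := hF.2 j none
    have : Nonempty (io j) := ⟨i1⟩
    obtain ⟨i0, hi0⟩ := Finite.exists_max fun i => R.v ((F j i).coeff (d j))
    have h0 : (F j i0).coeff (d j) ≠ 0 := fun h0 => hi1 (by
      have := hi0 i1
      rwa [h0, map_zero, le_zero_iff, map_eq_zero] at this)
    refine ⟨((F j i0).coeff (d j))⁻¹, fun i => ?_, i0, inv_mul_cancel₀ h0⟩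
    rw [R.mem_iff, map_mul, map_inv₀]
    exact inv_mul_le_one_of_le₀ (hi0 i) zero_le
  choose c hcO i1 hi1 using hc
  have hc0 : ∀ j, c j ≠ 0 := fun j h0 => by
    have := hi1 j
    rw [h0, zero_mul] at this
    exact zero_ne_one this
  -- a large disc
  have hρ : ∃ ρ : K, ρ ≠ 0 ∧ ∀ j i l, l < d j →
      R.v (c j * (F j i).coeff l) ≤ R.v ρ ^ (d j - l) := by
    by_cases hd : ∃ j, 0 < d j
    · obtain ⟨j0, hj0⟩ := hd
      obtain ⟨ρ, h1, -⟩ := exists_radius R d (fun j i l => c j * (F j i).coeff l) j0 (i1 j0) hj0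
      refine ⟨ρ, ?_, h1⟩
      rintro rfl
      obtain ⟨i, hi⟩ := hF.2 j0 (some 0)
      have := h1 j0 i 0 hj0
      rw [map_zero, zero_pow (by omega), le_zero_iff, map_eq_zero, coeff_zero_eq_eval_zero]
        at this
      exact hi ((mul_eq_zero.1 this).resolve_left (hc0 j0))
    · exact ⟨1, one_ne_zero, fun j i l hl => absurd ⟨j, by omega⟩ hd⟩
  obtain ⟨ρ, hρ, hρle⟩ := hρ
  have tay : ∀ σ : K[X], σ.comp (C 0 + C 1 * X) = σ := fun σ => by simp
  set F' : (j : J) → io j → K[X] := fun j i =>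
    C (ρ ^ d j)⁻¹ * (C (c j) * F j i).comp (C 0 + C ρ * X) with hF'
  have hhigh : ∀ (σ : K[X]) (M l : ℕ), σ.natDegree ≤ M → M < l →
      (C (ρ ^ M)⁻¹ * σ.comp (C 0 + C ρ * X)).coeff l = 0 := by
    intro σ M l hσ hl
    rw [coeff_aff, tay, coeff_eq_zero_of_natDegree_lt (hσ.trans_lt hl), zero_mul, mul_zero]
  have hdeg' : ∀ (σ : K[X]) (M : ℕ), σ.natDegree ≤ M →
      (R.pP (C (ρ ^ M)⁻¹ * σ.comp (C 0 + C ρ * X))).natDegree ≤ M := fun σ M hσ =>
    natDegree_le_iff_coeff_eq_zero.2 fun l hl => by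
      rw [R.coeff_pP, hhigh σ M l hσ hl, R.p_zero]
  have htop' : ∀ (σ : K[X]) (M : ℕ),
      (C (ρ ^ M)⁻¹ * σ.comp (C 0 + C ρ * X)).coeff M = σ.coeff M := by
    intro σ M
    rw [coeff_aff, v_scale_high hρ le_rfl, Nat.sub_self, pow_zero, mul_one, tay]
  have hcd : ∀ j i, (C (c j) * F j i).natDegree ≤ d j := fun j i =>
    (natDegree_C_mul_le _ _).trans (hF.1 j i)
  have hint' : ∀ j i, PInt R.O (F' j i) := by
    intro j i l
    rcases lt_trichotomy l (d j) with hl | hl | hl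
    · rw [R.mem_iff, coeff_aff, v_scale_low hρ hl.le, map_mul, map_inv₀, map_pow, tay,
        coeff_C_mul]
      exact mul_inv_le_one_of_le₀ (hρle j i l hl) zero_le
    · rw [hl, htop', coeff_C_mul]; exact hcO j i
    · rw [hhigh _ _ _ (hcd j i) hl]; exact R.O.zero_mem
  have hCH : CH R d F' := by
    refine ⟨hint', fun j i => hdeg' _ _ (hcd j i), fun j => ⟨i1 j, ?_⟩, fun y hy j => ?_⟩
    · rw [htop', coeff_C_mul, hi1, R.p_one]; exact one_ne_zero
    · obtain ⟨i, hi⟩ := hF.2 j (some (0 + ρ * y))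
      refine ⟨i, ?_⟩
      rw [eval_aff, eval_mul, eval_C]
      exact mul_ne_zero (inv_ne_zero (pow_ne_zero _ hρ)) (mul_ne_zero (hc0 j) hi)
  obtain ⟨A⟩ := cs_all hCH
  let sp : Option K → A.T.Pt := fun y => match y with
    | none => (A.T.root, none)
    | some y => if ρ⁻¹ * (y - 0) ∈ R.O then A.sp (ρ⁻¹ * (y - 0)) else (A.T.root, none)
  let nrm : Option K → J → K := fun y j => match y with
    | none => c j
    | some y => (if ρ⁻¹ * (y - 0) ∈ R.O then A.nrm (ρ⁻¹ * (y - 0)) j * (ρ ^ d j)⁻¹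
        else ((y - 0) ^ d j)⁻¹) * c j
  have hback : ∀ y, 0 + ρ * (ρ⁻¹ * (y - 0)) = y := fun y => by field_simp; ring
  have hfwd : ∀ w, ρ⁻¹ * (0 + ρ * w - 0) = w := fun w => by field_simp; ring
  have hout : ∀ (σ : K[X]) (M : ℕ) (y : K), σ.natDegree ≤ M → ∀ l, M < l →
      R.v ((σ.comp (C 0 + C 1 * X)).coeff l) * R.v (y - 0) ^ (l - M) < 1 := by
    intro σ M y hσ l hl
    rw [tay, coeff_eq_zero_of_natDegree_lt (hσ.trans_lt hl), map_zero, zero_mul]
    exact zero_lt_one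
  have hev : ∀ y j i, nrm y j * hv (d j) (F j i) y ∈ R.O ∧
      R.p (nrm y j * hv (d j) (F j i) y) = A.T.ev (sp y) j i := by
    rintro (_ | y) j i
    · refine ⟨hcO j i, ?_⟩
      rw [show sp none = (A.T.root, none) from rfl, A.top, htop', coeff_C_mul]
      rfl
    · by_cases hc : ρ⁻¹ * (y - 0) ∈ R.O
      · have := A.ev _ hc j i
        rw [eval_aff, hback, eval_mul, eval_C, ← mul_assoc, ← mul_assoc] at this
        simpa only [sp, nrm, if_pos hc, hv_some] using this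
      · have := outer hρ (hint' j i) hc (hout _ _ y (hcd j i))
        rw [← A.top, eval_mul, eval_C, ← mul_assoc] at this
        simpa only [sp, nrm, if_neg hc, hv_some] using this
  have hch : ∀ b, Chart R F A.T (fun y => sp (some y)) Set.univ b := fun b =>
    Chart.transport (T := A.T) (F := F) (F' := F')
      (sp := fun y => sp (some y)) (A := Set.univ) (a := b) (x0 := 0) (ρ0 := ρ)
      (e := fun j => (ρ ^ d j)⁻¹ * c j)
      (fun j i => by simp only [hF', mul_comp, C_comp, C_mul, mul_assoc]) hρ rfl rfl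
      (fun w hw z hz => ⟨trivial, by
        have hw' : w ∈ R.O := hw
        simp only [sp, hfwd, if_pos hw', hz]⟩) (A.chart b)
  refine ⟨{
    T := A.T
    ok := A.ok
    deg := A.deg
    sp := sp
    nrm := nrm
    sp_none := rfl
    nrm_mem := fun y j i => (hev y j i).1
    ev_sp := fun y j i => (hev y j i).2
    surj := fun pt => ?_
    sec := ?_
    chart := fun b => ?_ }, hch⟩
  · rcases A.surj pt with rfl | ⟨w, hw, hs⟩
    · exact ⟨none, Same.refl _ _⟩
    · refine ⟨some (0 + ρ * w), ?_⟩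
      simp only [sp, hfwd, if_pos hw]
      exact hs
  · intro kk σ hσ hσ0
    have hE : (∏ j, c j ^ kk j) ≠ 0 := Finset.prod_ne_zero_iff.2 fun j _ => pow_ne_zero _ (hc0 j)
    set τ : K[X] := C (ρ ^ dot kk d)⁻¹ * (C (∏ j, c j ^ kk j) * σ).comp (C 0 + C ρ * X) with hτ
    have hτ0 : A.ν kk τ ≠ 0 := by
      intro h0
      have h1 : τ = 0 := R.gn_eq_zero (le_zero_iff.1 (h0 ▸ A.ν_gn kk τ))
      apply hσ0
      ext l
      have h2 := coeff_aff (C (∏ j, c j ^ kk j) * σ) (ρ ^ dot kk d)⁻¹ 0 ρ l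
      rw [← hτ, h1, coeff_zero, tay, coeff_C_mul] at h2
      simpa [hρ, hE] using h2
    obtain ⟨e, he0, he⟩ := R.exists_scale hτ0
    set σ' : K[X] := C e * (C (∏ j, c j ^ kk j) * σ) with hσ'
    have hσ'd : σ'.natDegree ≤ dot kk d :=
      (natDegree_C_mul_le _ _).trans ((natDegree_C_mul_le _ _).trans hσ)
    have hν : A.ν kk (C (ρ ^ dot kk d)⁻¹ * σ'.comp (C 0 + C ρ * X)) = 1 := by
      rw [← he, ← A.ν_mul]
      congr 1
      simp only [hσ', hτ, mul_comp, C_comp]; ring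
    have hI := R.gn_le_one_iff.1 ((A.ν_gn kk _).trans hν.le)
    obtain ⟨s, hs, hr, hvv, hz⟩ := A.sec kk _ hν.le (hdeg' σ' _ hσ'd)
    refine ⟨e, he0, s, hs, fun h0 => absurd (hz h0) (by rw [hν]; exact lt_irrefl _), ?_⟩
    rintro (_ | y)
    · have h1 := hI (dot kk d)
      rw [htop', hσ', coeff_C_mul, coeff_C_mul, ← mul_assoc] at h1 hr
      exact ⟨h1, hr.symm⟩
    · by_cases hc : ρ⁻¹ * (y - 0) ∈ R.O
      · have := hvv _ hc
        have e1 : lam A.nrm kk (C (ρ ^ dot kk d)⁻¹ * σ'.comp (C 0 + C ρ * X)) (ρ⁻¹ * (y - 0)) =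
            e * (∏ j, nrm (some y) j ^ kk j) * hv (dot kk d) σ (some y) := by
          rw [lam, eval_aff, hback]
          simp only [nrm, if_pos hc, mul_pow, Finset.prod_mul_distrib,
            prod_pow_inv, hσ', eval_mul, eval_C, hv_some]
          ring
        rw [e1] at this
        simpa only [sp, if_pos hc] using this
      · have := outer hρ hI hc (hout _ _ y hσ'd)
        have e1 : ((y - 0) ^ dot kk d)⁻¹ * σ'.eval y =
            e * (∏ j, nrm (some y) j ^ kk j) * hv (dot kk d) σ (some y) := by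
          simp only [nrm, if_neg hc, mul_pow, Finset.prod_mul_distrib,
            prod_pow_inv, hσ', eval_mul, eval_C, hv_some]
          ring
        rw [← hr, e1] at this
        simpa only [sp, if_neg hc] using this
  · obtain ⟨x, ρ', c', h', h1, h2, h3, h4, h5⟩ := hch b
    exact ⟨x, ρ', c', h', h1, h2, h3, fun j z hz => (h4 z).2 ⟨j, hz⟩,
      fun u hu hu' => (h5 u hu hu').2⟩

/-- **Existence of the reduction tree.** -/
theorem exists_red [IsAlgClosed K] [IsAlgClosed k] [∀ j, Finite (io j)] (R : Rd K k)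
    {d : J → ℕ} {F : (j : J) → io j → K[X]} (hF : Cop d F) : Nonempty (Red R d F) :=
  (exists_red' R hF).nonempty


end Crest.Agent.X262.Bub96
end

-- ▼ part X262/Bub96/NormA
section

/-! # Norming sets: the criterion on the reduction tree -/

set_option autoImplicit false
set_option linter.unusedSectionVars false

namespace Crest.Agent.X262.Bub96

open Polynomial Tr

variable {K : Type*} [Field K] {k : Type*} [Field k] {J : Type*} [Fintype J] {io : J → Type*}

namespace Tr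

theorem val_const {kk : J → ℕ} : {T : Tr k J io} → {s : T.Vx → k[X]} → T.IsSec kk s →
    (∀ a, s a = 0 ∨ dot kk (T.vd a) = 0) → ∀ x y, val kk T s x = val kk T s y
  | leaf d g, s, hs, h, x, y => by
    have hs' : (s ()).natDegree ≤ dot kk d := hs
    show hv (dot kk d) (s ()) x.2 = hv (dot kk d) (s ()) y.2
    rcases h () with h0 | h0
    · rw [h0, hv_zero, hv_zero]
    · have h0' : dot kk d = 0 := h0
      rw [h0'] at hs' ⊢
      rw [eq_C_of_natDegree_le_zero hs']
      rcases x.2 with _ | _ <;> rcases y.2 with _ | _ <;> simp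
  | glue T p S, s, hs, h, x, y => by
    have h1 := val_const hs.1 fun a => h (Sum.inl a)
    have h2 := val_const hs.2.1 fun a => h (Sum.inr a)
    have key : ∀ x, val kk (glue T p S) s x =
        val kk T (fun a => s (Sum.inl a)) (T.root, some p) := by
      rintro ⟨a | a, u⟩
      · exact h1 (a, u) _
      · exact (h2 (a, u) _).trans hs.2.2
    rw [key, key]

theorem eq_zero_of_val [Infinite k] {kk : J → ℕ} {T : Tr k J io} {s : T.Vx → k[X]}
    (h : ∀ x, val kk T s x = 0) : s = 0 :=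
  _root_.funext fun a => Polynomial.funext fun z => (h (a, some z)).trans (eval_zero).symm

/-- the norming criterion without holes. -/
theorem norming_of_pts [Infinite k] {kk : J → ℕ} {T : Tr k J io} {Y : Set T.Pt}
    (hY : Y.Nonempty) (h : ∀ a, dot kk (T.vd a) = 0 ∨ ∃ D : Finset k, dot kk (T.vd a) < D.card ∧
      ∀ x ∈ D, (a, some x) ∈ Y) : T.Norming kk Y := by
  intro s hs h0
  obtain ⟨y, hy⟩ := hY
  refine eq_zero_of_val (kk := kk) fun x => (val_const hs (fun a => ?_) x y).trans (h0 y hy)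
  rcases h a with h1 | ⟨D, hc, hD⟩
  · exact Or.inr h1
  · exact Or.inl (eq_zero_of_natDegree_lt_card_of_eval_eq_zero' (s a) D
      (fun x hx => h0 _ (hD x hx)) ((hs.natDegree_le a).trans_lt hc))

end Tr

/-- the residue field of a valuation ring of an algebraically closed field. -/
theorem Rd.isAlgClosed [IsAlgClosed K] (R : Rd K k) : IsAlgClosed k := by
  refine IsAlgClosed.of_exists_root k fun q hq hirr => ?_
  obtain ⟨P, hP, hd, hm⟩ := lifts_and_natDegree_eq_and_monic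
    ((mem_lifts q).2 (map_surjective R.red R.surj q)) hq
  obtain ⟨r, hr⟩ := IsAlgClosed.exists_root (P.map (algebraMap R.O K)) (by
    rw [hm.degree_map, degree_eq_natDegree hm.ne_zero, hd]
    exact_mod_cast hirr.natDegree_pos.ne')
  obtain ⟨x, rfl⟩ := IsIntegrallyClosed.isIntegral_iff (R := R.O) (K := K).1
    ⟨P, hm, by rwa [IsRoot, eval_map] at hr⟩
  refine ⟨R.red x, ?_⟩
  rw [IsRoot, eval_map_algebraMap, aeval_algebraMap_apply, map_eq_zero_iff _
    Subtype.val_injective, coe_aeval_eq_eval] at hr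
  rw [← hP, eval_map, eval₂_hom, hr, map_zero]

theorem Rd.p_natCast (R : Rd K k) (n : ℕ) : (n : K) ∈ R.O ∧ R.p (n : K) = n := by
  refine ⟨natCast_mem _ n, ?_⟩
  rw [R.p_of_mem (natCast_mem _ n), ← map_natCast R.red n]
  rfl

variable [∀ j, Fintype (io j)]

/-- exponents of the Vandermonde forms. -/
noncomputable def ex (io : J → Type*) [∀ j, Fintype (io j)] (j : J) (i : io j) : ℕ :=
  Fintype.equivFin (io j) i

/-- the Vandermonde linear forms applied to the map. -/
noncomputable def lf {S : Type*} [CommRing S] (F : (j : J) → io j → S[X]) (j : J) (c : ℕ) : S[X] :=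
  ∑ i, C ((c : S) ^ ex io j i) * F j i

omit [Fintype J] in
theorem card_bad [CharZero k] [DecidableEq k] {j : J} {y : io j → k} (hy : ∃ i, y i ≠ 0) (B : ℕ) :
    ((Finset.range B).filter fun c : ℕ => ∑ i, (c : k) ^ ex io j i * y i = 0).card ≤
      Fintype.card (io j) := by
  classical
  obtain ⟨i0, hi0⟩ := hy
  set P : k[X] := ∑ i, monomial (ex io j i) (y i) with hP
  have hP0 : P ≠ 0 := fun h0 => hi0 (by
    have := congrArg (coeff · (ex io j i0)) h0
    simp only [hP, finsetSum_coeff, coeff_monomial, coeff_zero] at this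
    rwa [Finset.sum_eq_single i0 (fun i _ hi => if_neg fun h : ex io j i = ex io j i0 => hi
      ((Fintype.equivFin (io j)).injective (Fin.ext h))) (by simp), if_pos rfl] at this)
  have hd : P.natDegree ≤ Fintype.card (io j) :=
    natDegree_sum_le_of_forall_le _ _ fun i _ =>
      (natDegree_monomial_le _).trans (Fintype.equivFin (io j) i).2.le
  refine le_trans ?_ ((Multiset.toFinset_card_le _).trans ((card_roots' P).trans hd))
  refine Finset.card_le_card_of_injOn (fun c : ℕ => (c : k)) (fun c hc => ?_)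
    Nat.cast_injective.injOn
  have h1 := (Finset.mem_filter.1 hc).2
  rw [Finset.mem_coe, Multiset.mem_toFinset, mem_roots hP0, IsRoot.def, hP, eval_finsetSum, ← h1]
  exact Finset.sum_congr rfl fun i _ => by rw [eval_monomial, mul_comm]

/-- the number of forms that is needed. -/
def nb (io : J → Type*) [∀ j, Fintype (io j)] (d : J → ℕ) (N : ℕ) : ℕ :=
  (1 + (N + 1) * ∑ j, d j) * (∑ j, Fintype.card (io j)) + 1

/-- roots of enough Vandermonde forms specialise to a norming set. -/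
theorem norming_roots [IsAlgClosed K] [IsAlgClosed k] [CharZero k] {R : Rd K k} {d : J → ℕ}
    {F : (j : J) → io j → K[X]} (hF : Cop d F) (A : Red R d F)
    (hA : ∀ a, Chart R F A.T (fun y => A.sp (some y)) Set.univ a) {N : ℕ} {Y : Set (Option K)}
    (hY : Y.Nonempty)
    (hr : ∀ j c, c < nb io d N → lf F j c ≠ 0 → ∀ y, (lf F j c).eval y = 0 → some y ∈ Y)
    {kk : J → ℕ} (hk : ∀ j, kk j ≤ N) : A.T.Norming kk (A.sp '' Y) := by
  classical
  refine norming_of_pts (hY.image _) fun a => ?_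
  by_cases h0 : ∀ j, A.T.vd a j = 0
  · left; simp [dot, h0]
  right
  push Not at h0
  obtain ⟨j, hj⟩ := h0
  obtain ⟨x, ρ, e, h, hρ, hh, hP, hho, hsp⟩ := hA a
  let H : Finset k := (∏ j, h j).roots.toFinset
  have hH0 : (∏ j, h j) ≠ 0 := Finset.prod_ne_zero_iff.2 fun j _ => hh j
  have hH : ∀ z, z ∈ A.T.hole a → z ∈ H := fun z hz => by
    simpa only [H, Multiset.mem_toFinset, mem_roots hH0, IsRoot.def, eval_prod,
      Finset.prod_eq_zero_iff, Finset.mem_univ, true_and] using (hho z).1 hz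
  have hHc : H.card ≤ ∑ j, d j := by
    refine (Multiset.toFinset_card_le _).trans ((card_roots' _).trans ?_)
    refine (natDegree_prod_le _ _).trans (Finset.sum_le_sum fun j _ => ?_)
    obtain ⟨i, hi⟩ := A.ok.ev_ne (a, none) j
    have hg : A.T.vg a j i ≠ 0 := fun h0 => hi (by simp only [Tr.ev, h0, hv_zero])
    have h1 : (h j * A.T.vg a j i).natDegree ≤ d j := by
      rw [← (hP j i).2, natDegree_le_iff_coeff_eq_zero]
      intro l hl
      rw [R.coeff_pP, coeff_eq_zero_of_natDegree_lt, R.p_zero]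
      refine lt_of_le_of_lt ((natDegree_C_mul_le _ _).trans (natDegree_comp_le.trans ?_)) hl
      refine (Nat.mul_le_mul (hF.1 j i) ?_).trans (mul_one _).le
      compute_degree
    rw [natDegree_mul (hh j) hg] at h1
    omega
  have step : ∀ D : Finset k, D.card ≤ N * ∑ j, d j →
      ∃ z, z ∉ D ∧ (a, some z) ∈ A.sp '' Y := by
    intro D hD
    let Bd : Finset (Option k) := insert none ((D ∪ H).image some)
    have hBd : Bd.card ≤ 1 + (N + 1) * ∑ j, d j := by
      refine (Finset.card_insert_le _ _).trans ?_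
      have := (Finset.card_image_le (s := D ∪ H) (f := some)).trans (Finset.card_union_le D H)
      rw [add_mul]
      omega
    let bad : Option k → Finset ℕ := fun b => (Finset.range (nb io d N)).filter
      fun c : ℕ => ∑ i, (c : k) ^ ex io j i * A.T.ev (a, b) j i = 0
    have hlt : (Bd.biUnion bad).card < (Finset.range (nb io d N)).card := by
      rw [Finset.card_range]
      refine Nat.lt_succ_of_le ((Finset.card_biUnion_le_card_mul _ _ _ fun b _ =>
        card_bad (A.ok.ev_ne (a, b) j) _).trans (Nat.mul_le_mul hBd ?_))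
      exact Finset.single_le_sum (f := fun j => Fintype.card (io j)) (fun _ _ => Nat.zero_le _)
        (Finset.mem_univ j)
    obtain ⟨c, hc, hc'⟩ := Finset.exists_mem_notMem_of_card_lt_card hlt
    set G : k[X] := lf (A.T.vg a) j c with hG
    have hGv : ∀ b ∈ Bd, hv (A.T.vd a j) G b ≠ 0 := fun b hb h0 =>
      hc' (Finset.mem_biUnion.2 ⟨b, hb, Finset.mem_filter.2 ⟨hc, by
        rw [← h0, hG, lf, hv_sum]
        exact Finset.sum_congr rfl fun i _ => (hv_C_mul _ _ _ _).symm⟩⟩)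
    have hG1 : G.coeff (A.T.vd a j) ≠ 0 := hGv none (Finset.mem_insert_self _ _)
    have hG0 : G ≠ 0 := fun h0 => hG1 (by rw [h0, coeff_zero])
    obtain ⟨z, hz⟩ := IsAlgClosed.exists_root G (natDegree_pos_iff_degree_pos.1
      (lt_of_lt_of_le (Nat.pos_of_ne_zero hj) (le_natDegree_of_ne_zero hG1))).ne'
    have hzB : z ∉ D ∪ H := fun hm =>
      hGv (some z) (Finset.mem_insert_of_mem (Finset.mem_image_of_mem _ hm)) hz
    have hQ : C (e j) * (lf F j c).comp (C x + C ρ * X) =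
        ∑ i, C ((c : K) ^ ex io j i) * (C (e j) * (F j i).comp (C x + C ρ * X)) := by
      rw [lf, Polynomial.sum_comp, Finset.mul_sum]
      exact Finset.sum_congr rfl fun i _ => by rw [mul_comp, C_comp, mul_left_comm]
    have hc1 : ∀ i, (c : K) ^ ex io j i ∈ R.O := fun i => pow_mem (R.p_natCast c).1 _
    obtain ⟨hI, eI⟩ := Rd.pInt_sum (R := R) Finset.univ
      (fun i => C ((c : K) ^ ex io j i) * (C (e j) * (F j i).comp (C x + C ρ * X)))
      fun i _ => ((Rd.pInt_C (hc1 i)).1.mul (hP j i).1).1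
    rw [← hQ] at hI eI
    have eI' : R.pP (C (e j) * (lf F j c).comp (C x + C ρ * X)) = h j * G := by
      rw [eI, hG, lf, Finset.mul_sum]
      refine Finset.sum_congr rfl fun i _ => ?_
      rw [((Rd.pInt_C (hc1 i)).1.mul (hP j i).1).2, (Rd.pInt_C (hc1 i)).2, (hP j i).2,
        R.p_pow (R.p_natCast c).1, (R.p_natCast c).2, mul_left_comm]
    have hne : R.pP (C (e j) * (lf F j c).comp (C x + C ρ * X)) ≠ 0 :=
      eI' ▸ mul_ne_zero (hh j) hG0
    have hz0 : R.pP (0 : K[X]) = 0 := by ext l; rw [R.coeff_pP, coeff_zero, R.p_zero, coeff_zero]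
    obtain ⟨u, hu, huz, hu0⟩ := Rd.exists_root hI hne (z := z)
      (by rw [eI', IsRoot, eval_mul, show G.eval z = 0 from hz, mul_zero])
    rw [eval_aff] at hu0
    refine ⟨z, fun hm => hzB (Finset.mem_union_left _ hm), some (x + ρ * u),
      hr j c (Finset.mem_range.1 hc) (fun h0 => hne (by rw [h0, zero_comp, mul_zero, hz0])) _
        ((mul_eq_zero.1 hu0).resolve_left fun h0 => hne (by rw [h0, C_0, zero_mul, hz0])), ?_⟩
    have := (hsp u hu fun hm => hzB (Finset.mem_union_right _ (huz ▸ hH _ hm))).2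
    rwa [huz] at this
  have all : ∀ m, m ≤ N * ∑ j, d j + 1 →
      ∃ D : Finset k, D.card = m ∧ ∀ z ∈ D, (a, some z) ∈ A.sp '' Y := by
    intro m
    induction m with
    | zero => exact fun _ => ⟨∅, rfl, fun z hz => absurd hz (Finset.notMem_empty _)⟩
    | succ m ih =>
      intro hm
      obtain ⟨D, hD, hD'⟩ := ih (by omega)
      obtain ⟨z, hz, hz'⟩ := step D (by omega)
      refine ⟨insert z D, by rw [Finset.card_insert_of_notMem hz, hD], fun w hw => ?_⟩
      rcases Finset.mem_insert.1 hw with rfl | hw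
      · exact hz'
      · exact hD' w hw
  obtain ⟨D, hD, hD'⟩ := all _ le_rfl
  refine ⟨D, hD ▸ Nat.lt_succ_of_le ?_, hD'⟩
  rw [dot, Finset.mul_sum]
  exact Finset.sum_le_sum fun j _ => Nat.mul_le_mul (hk j)
    ((A.T.vd_le_deg a j).trans (congrFun A.deg j).le)

namespace Red

variable {R : Rd K k} {d : J → ℕ} {F : (j : J) → io j → K[X]} (A : Red R d F)

/-- the normalised value of a form of degree `kk · d`. -/
noncomputable def nv (kk : J → ℕ) (σ : K[X]) (y : Option K) : K :=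
  (∏ j, A.nrm y j ^ kk j) * hv (dot kk d) σ y

/-- points that specialise to a norming set bound the forms. -/
theorem bound {kk : J → ℕ} {Y : Set (Option K)} (hN : A.T.Norming kk (A.sp '' Y)) {σ : K[X]}
    (hσ : σ.natDegree ≤ dot kk d) (h : ∀ y ∈ Y, A.nv kk σ y ∈ R.O) (t : Option K) :
    A.nv kk σ t ∈ R.O := by
  by_cases h0 : σ = 0
  · rw [nv, h0, hv_zero, mul_zero]; exact R.O.zero_mem
  obtain ⟨e, he, s, hs, hs0, hv⟩ := A.sec kk σ hσ h0
  by_cases h1 : e⁻¹ ∈ R.O
  · have := R.O.mul_mem _ _ h1 (hv t).1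
    rwa [mul_assoc e, inv_mul_cancel_left₀ he] at this
  · refine absurd (hN s hs ?_) hs0
    rintro _ ⟨y, hy, rfl⟩
    have he1 : R.v e < 1 := by
      rw [R.mem_iff, map_inv₀, not_le] at h1
      exact (one_lt_inv₀ (zero_lt_iff.2 (by simpa using he))).1 h1
    rw [← (hv y).2, mul_assoc, ← nv, R.p_mul (R.mem_of_lt he1) (h y hy), R.p_eq_zero_of_lt he1,
      zero_mul]

/-- a bounded form reduces to a section. -/
theorem exists_sec [Infinite k] {kk : J → ℕ} {σ : K[X]} (hσ : σ.natDegree ≤ dot kk d)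
    (h : ∀ y, A.nv kk σ y ∈ R.O) :
    ∃ s, A.T.IsSec kk s ∧ ∀ y, R.p (A.nv kk σ y) = val kk A.T s (A.sp y) := by
  by_cases h0 : σ = 0
  · exact ⟨0, isSec_zero _ _, fun y => by rw [nv, h0, hv_zero, mul_zero, R.p_zero, val_zero]⟩
  obtain ⟨e, he, s, hs, hs0, hv⟩ := A.sec kk σ hσ h0
  have h1 : e⁻¹ ∈ R.O := by
    by_contra h1
    have he1 : R.v e < 1 := by
      rw [R.mem_iff, map_inv₀, not_le] at h1
      exact (one_lt_inv₀ (zero_lt_iff.2 (by simpa using he))).1 h1
    refine hs0 (eq_zero_of_val (kk := kk) fun x => ?_)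
    obtain ⟨y, hy⟩ := A.surj x
    rw [hy.2 kk s hs, ← (hv y).2, mul_assoc, ← nv, R.p_mul (R.mem_of_lt he1) (h y),
      R.p_eq_zero_of_lt he1, zero_mul]
  refine ⟨R.p e⁻¹ • s, hs.smul _, fun y => ?_⟩
  rw [val_smul, ← (hv y).2, ← R.p_mul h1 (hv y).1, mul_assoc e, inv_mul_cancel_left₀ he, nv]

end Red

end Crest.Agent.X262.Bub96
end

-- ▼ part X262/Bub96/NormB

/-! # Norming points exist over a finite extension; extension of places -/

set_option autoImplicit false
set_option linter.unusedSectionVars false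

noncomputable section

namespace Crest.Agent.X262.Bub96

open Polynomial Tr IsLocalRing Crest.Agent.X277 Crest.Agent.X277.BD Crest.Agent.X262.Vb

variable {J : Type} [Fintype J] [DecidableEq J] {io : J → Type} [∀ j, Fintype (io j)]
  [∀ j, DecidableEq (io j)] {d : J → ℕ} {I : Type}
  {K L : Type} [Field K] [Algebra ℂ K] [Field L] [Algebra ℂ L]

/-- the reduction map of a valuation ring. -/
def rd (W : RZ ℂ L) : Rd L (ResidueField W.1) where
  O := W.1
  red := residue W.1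
  ker x := by rw [residue_eq_zero_iff, ValuationSubring.valuation_lt_one_iff]
  surj := residue_surjective

theorem charZero_rd (W : RZ ℂ L) : CharZero (ResidueField W.1) :=
  charZero_of_injective_ringHom
    ((residue W.1).comp ((algebraMap ℂ L).codRestrict W.1 W.2)).injective

omit [Algebra ℂ K] in
theorem cop_of_cp {f : (j : J) → io j → K[X]} (h : Cp d f) : Cop d f := by
  refine ⟨h.1, fun j x => ?_⟩
  rcases x with _ | x
  · exact h.2.1 j
  · by_contra hc
    push Not at hc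
    have : Ideal.span (Set.range (f j)) ≤ RingHom.ker (evalRingHom x) :=
      Ideal.span_le.2 (by rintro _ ⟨i, rfl⟩; exact hc i)
    rw [h.2.2 j] at this
    simpa using this (Submodule.mem_top (x := 1))

theorem nz_pt (ξ : Dat io d I K) (t : Option K) : NZ (ξ.pt t) := fun j => (cop_of_cp ξ.cp).2 j t

theorem hv_map {R S : Type*} [CommRing R] [CommRing S] (γ : R →+* S) (n : ℕ) (σ : R[X])
    (t : Option R) : hv n (σ.map γ) (t.map γ) = γ (hv n σ t) := by
  rcases t with _ | t <;> simp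

theorem pt_map (ξ : Dat io d I K) (γ : K →ₐ[ℂ] L) (t : Option K) :
    (ξ.map γ).pt (t.map γ) = fun j i => γ (ξ.pt t j i) :=
  _root_.funext fun j => _root_.funext fun i => hv_map (γ : K →+* L) (d j) (ξ.f j i) t

theorem dat_map_map {M : Type} [Field M] [Algebra ℂ M] (ξ : Dat io d I K) (α : K →ₐ[ℂ] L)
    (γ : L →ₐ[ℂ] M) : (ξ.map α).map γ = ξ.map (γ.comp α) := by
  simp only [Dat.map, Polynomial.map_map, Option.map_map]
  rfl

theorem lw_map (γ : K →ₐ[ℂ] L) (κ : J → ℕ) (y : Pnt io K) :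
    lw κ (fun j i => γ (y j i)) = pb γ (lw κ y) := by
  simp only [lw, ln, map_sum, map_nsmul, pb_mxf]

theorem lf_map {R S : Type*} [CommRing R] [CommRing S] (γ : R →+* S) (F : (j : J) → io j → R[X])
    (j : J) (c : ℕ) : lf (fun j i => (F j i).map γ) j c = (lf F j c).map γ := by
  simp [lf, Polynomial.map_sum]

/-- it suffices to test algebraically closed extensions. -/
theorem nrm_of_closed {ξ : Dat io d I K} {κ : J → ℕ}
    (h : ∀ (L : Type) [Field L] [Algebra ℂ L] [IsAlgClosed L] (α : K →ₐ[ℂ] L) (W : RZ ℂ L)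
      (σ : L[X]), σ.natDegree ≤ dot κ d →
      (∀ q, W.v (hv (dot κ d) σ ((ξ.map α).x q)) ≤ (lw κ ((ξ.map α).pt ((ξ.map α).x q))).val W) →
      ∀ t, W.v (hv (dot κ d) σ t) ≤ (lw κ ((ξ.map α).pt t)).val W) : ξ.Nrm κ := by
  intro L _ _ α W σ hσ hq t
  let γ := IsScalarTower.toAlgHom ℂ L (AlgebraicClosure L)
  obtain ⟨W', rfl⟩ := cm_surjective γ W
  have key : ∀ t, W'.v (hv (dot κ d) (σ.map (γ : L →+* _)) (t.map γ)) ≤
      (lw κ ((ξ.map (γ.comp α)).pt (t.map γ))).val W' ↔ (cm _ (alg_ov γ) W').v (hv (dot κ d) σ t) ≤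
        (lw κ ((ξ.map α).pt t)).val (cm _ (alg_ov γ) W') := fun t => by
    rw [← dat_map_map, pt_map, lw_map, show t.map γ = t.map (γ : L →+* _) from rfl, hv_map]
    exact v_le_val_mp
  refine (key t).1 (h _ (γ.comp α) W' _ (natDegree_map_le.trans hσ) (fun q => ?_) _)
  have := (key _).2 (hq q)
  rwa [show ((ξ.map α).x q).map γ = (ξ.map (γ.comp α)).x q from Option.map_map _ _ _] at this

section red

variable {W : RZ ℂ L} {ξ : Dat io d I L} (A : Red (rd W) d ξ.f)

theorem v_nrm (t : Option L) (j : J) : W.v (A.nrm t j) * (ln (ξ.pt t) j).val W = 1 := by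
  obtain ⟨i, hi⟩ := A.ok.ev_ne (A.sp t) j
  have h1 : W.v (A.nrm t j) * W.v (ξ.pt t j i) = 1 := by
    rw [← map_mul]
    exact (rd W).v_eq_one (A.nrm_mem t j i) (A.ev_sp t j i ▸ hi)
  have h2 : W.v (A.nrm t j) ≠ 0 := left_ne_zero_of_mul_eq_one h1
  rw [ln, val_mxf (i := i) (RZ.ne_zero_iff.1 (right_ne_zero_of_mul_eq_one h1)) fun i' => ?_, h1]
  refine le_of_mul_le_mul_left ?_ (zero_lt_iff.2 h2)
  rw [h1, ← map_mul]
  exact RZ.le_one_iff.2 (A.nrm_mem t j i')

theorem nv_mem_iff (κ : J → ℕ) (σ : L[X]) (t : Option L) :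
    A.nv κ σ t ∈ (rd W).O ↔ W.v (hv (dot κ d) σ t) ≤ (lw κ (ξ.pt t)).val W := by
  have h1 : W.v (∏ j, A.nrm t j ^ κ j) * (lw κ (ξ.pt t)).val W = 1 := by
    rw [lw, val_sum, map_prod, ← Finset.prod_mul_distrib]
    exact Finset.prod_eq_one fun j _ => by rw [val_nsmul, map_pow, ← mul_pow, v_nrm, one_pow]
  refine (RZ.le_one_iff (V := W)).symm.trans ?_
  rw [Red.nv, map_mul, ← h1]
  exact mul_le_mul_iff_right₀ (zero_lt_iff.2 (left_ne_zero_of_mul_eq_one h1))

end red

/-- **criterion**: the points contain the roots of the Vandermonde forms. -/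
theorem nrmUp_of_roots [Nonempty I] {ξ : Dat io d I K} {N : ℕ}
    (h : ∀ j c, c < nb io d N → lf ξ.f j c ≠ 0 → (lf ξ.f j c).Splits ∧
      ∀ r, (lf ξ.f j c).IsRoot r → ∃ q, ξ.x q = some r) : ξ.NrmUp N := by
  intro κ hκ
  refine nrm_of_closed fun L _ _ _ α W σ hσ hq t => ?_
  have := (rd W).isAlgClosed
  have := charZero_rd W
  obtain ⟨A, hA⟩ := exists_red' (rd W) (cop_of_cp (ξ.map α).cp)
  rw [← nv_mem_iff A]
  refine A.bound (Y := Set.range (ξ.map α).x) (norming_roots (cop_of_cp (ξ.map α).cp) A hA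
    (Set.range_nonempty _) (fun j c hc h0 y hy => ?_) hκ) hσ ?_ t
  · have e : lf (ξ.map α).f j c = (lf ξ.f j c).map (α : K →+* L) := lf_map _ _ _ _
    rw [e] at h0 hy
    have h1 : lf ξ.f j c ≠ 0 := fun h1 => h0 (by rw [h1, Polynomial.map_zero])
    obtain ⟨r, rfl⟩ := (h j c hc h1).1.mem_range_of_isRoot h1 hy
    obtain ⟨q, hq⟩ := (h j c hc h1).2 r ((isRoot_map_iff (α : K →+* L).injective).1 hy)
    exact ⟨q, by simp only [Dat.map, hq]; rfl⟩
  · rintro _ ⟨q, rfl⟩
    exact (nv_mem_iff A κ σ _).2 (hq q)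

/-- **norming points exist** over a finite extension. -/
theorem exists_nrm {M : Type} (ξ : Dat io d M K) (N : ℕ) :
    ∃ (L : Type) (_ : Field L) (_ : Algebra ℂ L) (_ : Algebra K L) (_ : IsScalarTower ℂ K L)
      (_ : FiniteDimensional K L) (n : ℕ) (η : Dat io d (M ⊕ Fin n) L),
      η.res Sum.inl = ξ.map (IsScalarTower.toAlgHom ℂ K L) ∧ η.NrmUp N := by
  classical
  let S : Finset (J × ℕ) := (Finset.univ ×ˢ Finset.range (nb io d N)).filter
    fun x => lf ξ.f x.1 x.2 ≠ 0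
  let P : K[X] := ∏ x ∈ S, lf ξ.f x.1 x.2
  have hP : P ≠ 0 := Finset.prod_ne_zero_iff.2 fun x hx => (Finset.mem_filter.1 hx).2
  obtain ⟨L, _, _, _, _, _, hL⟩ : ∃ (L : Type) (_ : Field L) (_ : Algebra ℂ L) (_ : Algebra K L)
      (_ : IsScalarTower ℂ K L) (_ : FiniteDimensional K L), (P.map (algebraMap K L)).Splits :=
    ⟨P.SplittingField, inferInstance, inferInstance, inferInstance, inferInstance, inferInstance,
      SplittingField.splits P⟩
  let θ := IsScalarTower.toAlgHom ℂ K L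
  have hP' : P.map (algebraMap K L) ≠ 0 := Polynomial.map_ne_zero hP
  let s := (P.map (algebraMap K L)).roots.toFinset
  refine ⟨L, inferInstance, inferInstance, inferInstance, inferInstance,
    inferInstance, s.card + 1, ⟨(ξ.map θ).f, Sum.elim (ξ.map θ).x
      (Fin.cons none fun i => some (s.equivFin.symm i)), (ξ.map θ).cp⟩, rfl,
    nrmUp_of_roots fun j c hc h0 => ?_⟩
  have e : lf (ξ.map θ).f j c = (lf ξ.f j c).map (algebraMap K L) := lf_map _ _ _ _
  have hd : lf (ξ.map θ).f j c ∣ P.map (algebraMap K L) := by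
    rw [e]
    refine Polynomial.map_dvd _ (Finset.dvd_prod_of_mem (fun x : J × ℕ => lf ξ.f x.1 x.2) (a := (j, c))
      (Finset.mem_filter.2 ⟨by simpa using hc, fun h1 => h0 (e.trans ?_)⟩))
    rw [show lf ξ.f j c = 0 from h1, Polynomial.map_zero]
  refine ⟨hL.of_dvd hP' hd, fun r hr => ?_⟩
  have hs : r ∈ s := Multiset.mem_toFinset.2 ((mem_roots hP').2 (hr.dvd hd))
  exact ⟨Sum.inr (s.equivFin ⟨r, hs⟩).succ, by simp⟩

/-- a place extends to an algebraically closed field with a non-trivial valuation ring whose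
residue field contains the given value field. -/
theorem exists_ext {E E' : Type} [Field E] [Algebra ℂ E] [Field E'] [Algebra ℂ E']
    (p : Pl ℂ E ℂ E') : ∃ (L : Type) (_ : Field L) (_ : Algebra ℂ L) (_ : IsAlgClosed L)
      (α : E →ₐ[ℂ] L) (W : RZ ℂ L) (β : E' →+* ResidueField W.1),
      cm (α : E →+* L) (alg_ov α) W = p.V ∧ (∀ x ∈ p.V.1, (rd W).p (α x) = β (p.r x)) ∧
      ∃ π : L, π ≠ 0 ∧ W.v π < 1 := by
  let L := AlgebraicClosure (FractionRing (MvPolynomial E' E))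
  let α : E →ₐ[ℂ] L := IsScalarTower.toAlgHom ℂ E L
  let f : MvPolynomial E' p.V.1 →+* L :=
    (algebraMap (MvPolynomial E' E) L).comp (MvPolynomial.map p.V.1.subtype)
  have hf : Function.Injective f :=
    ((algebraMap (FractionRing (MvPolynomial E' E)) L).injective.comp
      (IsFractionRing.injective (MvPolynomial E' E) _)).comp
      (MvPolynomial.map_injective _ Subtype.val_injective)
  have hfC : ∀ x : p.V.1, f (MvPolynomial.C x) = α x := fun x => by
    simp only [f, RingHom.comp_apply, MvPolynomial.map_C]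
    exact (IsScalarTower.algebraMap_apply E (MvPolynomial E' E) L x).symm
  let ψ : MvPolynomial E' p.V.1 →+* E' := MvPolynomial.eval₂Hom p.φ id
  have hψ : Function.Surjective ψ := fun e => ⟨MvPolynomial.X e, by simp [ψ]⟩
  have hψC : ∀ x : p.V.1, ψ (MvPolynomial.C x) = p.φ x := fun x => by simp [ψ]
  have := RingHom.ker_isPrime ψ
  obtain ⟨W, h1, h2⟩ := Cns.exists_val f (RingHom.ker ψ) fun a ha => by
    rw [(map_eq_zero_iff f hf).1 ha]; exact zero_mem _
  let W' : RZ ℂ L := ⟨W, fun c => by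
    rw [← α.commutes c]; exact hfC ⟨_, p.V.2 c⟩ ▸ h1 _⟩
  have h3 : ∀ a, ψ a = 0 → W'.v (f a) < 1 := fun a ha =>
    lt_of_le_of_ne (RZ.le_one_iff.2 (h1 a)) fun h => (h2 a).1 (Cns.un_iff_val.2 h) ha
  let g : MvPolynomial E' p.V.1 →+* ResidueField W := (residue W).comp (f.codRestrict W h1)
  have hg : RingHom.ker ψ ≤ RingHom.ker g := fun a ha => ((rd W').ker ⟨f a, h1 a⟩).2 (h3 a ha)
  refine ⟨L, inferInstance, inferInstance, inferInstance, α, W',
    ψ.liftOfSurjective hψ ⟨g, hg⟩, Subtype.ext (ValuationSubring.ext _ _ fun x => ⟨fun hx => ?_,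
      fun hx => ?_⟩), fun x hx => ?_, f (MvPolynomial.X 0),
    (map_ne_zero_iff f hf).2 (MvPolynomial.X_ne_zero _), h3 _ (by simp [ψ])⟩
  · by_contra hxV
    have h4 : p.V.v x⁻¹ < 1 := by
      rw [map_inv₀]
      exact inv_lt_one_of_one_lt₀ (not_le.1 fun h => hxV (RZ.le_one_iff.1 h))
    have h5 := h3 (MvPolynomial.C ⟨x⁻¹, RZ.le_one_iff.1 h4.le⟩) (by rw [hψC]; exact (p.ker _).2 h4)
    rw [hfC, map_inv₀, map_inv₀] at h5
    have h6 : W'.v (α x) ≤ 1 := RZ.le_one_iff.2 hx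
    have h0 : x ≠ 0 := fun h => hxV (h ▸ zero_mem _)
    exact absurd ((inv_lt_one₀ (RZ.pos ((map_ne_zero α).2 h0))).1 h5) (not_lt.2 h6)
  · exact show α x ∈ W from hfC ⟨x, hx⟩ ▸ h1 _
  · rw [p.r_eq hx, ← hψC, RingHom.liftOfSurjective_comp_apply, ← hfC ⟨x, hx⟩,
      (rd W').p_of_mem (h1 _)]
    rfl

/-- evaluation at norming points is injective. -/
theorem nrm_inj {ξ : Dat io d I K} {κ : J → ℕ} (h : ξ.Nrm κ) {σ : K[X]}
    (hσ : σ.natDegree ≤ dot κ d) (h0 : ∀ q, hv (dot κ d) σ (ξ.x q) = 0) : σ = 0 := by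
  obtain ⟨L, _, _, _, α, W, -, -, -, π, hπ, hπ1⟩ :=
    exists_ext (Pl.ofHom (RingHom.id K) (alg_ov (AlgHom.id ℂ K)))
  refine (Polynomial.map_eq_zero (α : K →+* L)).1 (Polynomial.funext fun t => ?_)
  by_contra ht
  rw [eval_zero] at ht
  set a := lw κ ((ξ.map α).pt (some t))
  have := h L α W (C (π⁻¹ * a.gen W / (σ.map (α : K →+* L)).eval t) * σ.map (α : K →+* L))
    ((natDegree_C_mul_le _ _).trans (natDegree_map_le.trans hσ)) (fun q => by
      rw [hv_C_mul, show (ξ.map α).x q = (ξ.x q).map (α : K →+* L) from rfl, hv_map, h0, map_zero,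
        mul_zero, map_zero]
      exact zero_le) (some t)
  rw [hv_C_mul, hv_some, div_mul_cancel₀ _ ht, map_mul, v_gen, map_inv₀,
    mul_le_iff_le_one_left (a.val_pos W), inv_le_one₀ (RZ.pos hπ)] at this
  exact absurd hπ1 (not_lt.2 this)

theorem finrank_map_of_inj {k V V' : Type*} [Field k] [AddCommGroup V] [Module k V]
    [AddCommGroup V'] [Module k V'] (f : V →ₗ[k] V') (U : Submodule k V)
    (h : ∀ u ∈ U, f u = 0 → u = 0) : Module.finrank k (U.map f) = Module.finrank k U := by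
  rw [← LinearMap.range_domRestrict]
  exact LinearMap.finrank_range_of_inj ((injective_iff_map_eq_zero _).2 fun u hu =>
    Subtype.ext (h u u.2 hu))

theorem finrank_cfg {ξ : Dat io d I K} {κ : J → ℕ} (h : ξ.Nrm κ) :
    Module.finrank K (ξ.cfg.V κ) = dot κ d + 1 := by
  refine (finrank_map_of_inj _ _ fun σ hσ h0 =>
    nrm_inj h (natDegree_le_of_degree_le (mem_degreeLE.1 hσ)) (congrFun h0)).trans ?_
  rw [← degreeLT_succ_eq_degreeLE, (degreeLTEquiv K _).finrank_eq, Module.finrank_fin_fun]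

end Crest.Agent.X262.Bub96
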